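import Vale.Agent.P042V.Defs

/-! Two more estimates for the smooth weight. -/

namespace Vale.Agent.P042V

open Polynomial Finset Vale.Agent.P042U

variable {H : ℕ → ℤ} {M : ℕ}

theorem phi_norm_le (hH : Cvx H) (hX : 0 < H M) (β : ℝ) :
    ‖∑ m ∈ range M, (phi H M m : ℂ) * e (β * H m)‖ ≤ H M := by
  refine (norm_sum_le _ _).trans (le_trans (le_of_eq ?_) (sum_phi_le hH hX))
  refine sum_congr rfl fun m hm => ?_
  rw [norm_mul, norm_e, mul_one, Complex.norm_real, Real.norm_eq_abs,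
    abs_of_nonneg (phi_nonneg hH hX (mem_range.1 hm).le)]

theorem archB_geom (β : ℝ) (hβ : |β| ≤ 1 / 2) (t : ℕ) :
    ‖∑ n ∈ range t, ((|β| : ℝ) : ℂ) * e (β * n)‖ ≤ 1 / 2 := by
  have h2 : ∀ n ∈ range t, e (β * n) = e β ^ n := fun n _ => by
    rw [← e_nat_mul, mul_comm]
  rw [← mul_sum, sum_congr rfl h2, norm_mul, Complex.norm_real, Real.norm_eq_abs, abs_abs]
  have h3 : ‖∑ n ∈ range t, e β ^ n‖ * ‖e β - 1‖ ≤ 2 := by
    rw [← norm_mul, geom_sum_mul]
    refine (norm_sub_le _ _).trans ?_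
    rw [norm_pow, norm_e, one_pow, norm_one]
    norm_num
  have h4 : 4 * |β| ≤ ‖e β - 1‖ := by
    unfold e
    rw [mul_comm _ Complex.I, Complex.norm_exp_I_mul_ofReal_sub_one, Real.norm_eq_abs, abs_mul,
      abs_two]
    have hp := Real.pi_pos
    have e1 : 2 * Real.pi * β / 2 = Real.pi * β := by ring
    have h5 : |Real.pi * β| ≤ Real.pi / 2 := by
      rw [abs_mul, abs_of_pos hp]
      nlinarith
    have h6 := Real.mul_abs_le_abs_sin h5
    rw [abs_mul, abs_of_pos hp, ← mul_assoc, div_mul_cancel₀ _ hp.ne'] at h6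
    rw [e1]
    linarith
  have h8 := mul_le_mul_of_nonneg_left h4 (norm_nonneg (∑ n ∈ range t, e β ^ n))
  linarith

/-- the complex profile -/
noncomputable def archG (X β u : ℝ) : ℂ := ((1 - u / X : ℝ) : ℂ) * e (β * u)

theorem archB_lip (X β x y : ℝ) (hX : 0 < X) (hy0 : 0 ≤ y) (hxy : x ≤ y) (hy : y ≤ X) :
    ‖archG X β x - archG X β y‖ ≤ (1 / X + 2 * Real.pi * |β|) * (y - x) := by
  have e1 : archG X β x - archG X β y = (((y - x) / X : ℝ) : ℂ) * e (β * x) +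
      ((1 - y / X : ℝ) : ℂ) * (e (β * x) - e (β * y)) := by
    unfold archG; push_cast; ring
  have h3 : 0 ≤ 1 - y / X := by rw [sub_nonneg, div_le_one hX]; exact hy
  have h4 : 1 - y / X ≤ 1 := by have := div_nonneg hy0 hX.le; linarith
  have h5 : 0 ≤ (y - x) / X := div_nonneg (sub_nonneg.2 hxy) hX.le
  have h1 : ‖e (β * x) - e (β * y)‖ ≤ 2 * Real.pi * |β| * (y - x) := by
    refine (norm_e_sub_e_le _ _).trans (le_of_eq ?_)
    rw [← mul_sub, abs_mul, abs_sub_comm, abs_of_nonneg (sub_nonneg.2 hxy)]; ring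
  rw [e1]
  refine (norm_add_le _ _).trans ?_
  rw [norm_mul, norm_mul, norm_e, mul_one, Complex.norm_real, Complex.norm_real,
    Real.norm_eq_abs, Real.norm_eq_abs, abs_of_nonneg h5, abs_of_nonneg h3]
  have h6 := mul_le_mul h4 h1 (norm_nonneg _) zero_le_one
  have e2 : (1 / X + 2 * Real.pi * |β|) * (y - x) = (y - x) / X + 2 * Real.pi * |β| * (y - x) := by
    ring
  linarith

theorem archB_full (n : ℕ) (hn : 0 < n) (β : ℝ) (hβ : |β| ≤ 1 / 2) :
    |β| * ‖∑ u ∈ range n, archG n β ((u + 1 : ℕ) : ℝ)‖ ≤ 1 := by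
  have hn' : (0 : ℝ) < n := by exact_mod_cast hn
  have e1 : ∑ u ∈ range n, archG n β ((u + 1 : ℕ) : ℝ) = ∑ u ∈ range n, archG n β (u : ℝ) - 1 := by
    have h1 := sum_range_succ (fun u : ℕ => archG n β (u : ℝ)) n
    have h2 := sum_range_succ' (fun u : ℕ => archG n β (u : ℝ)) n
    have a1 : archG n β (n : ℝ) = 0 := by simp [archG, div_self hn'.ne']
    have a2 : archG n β ((0 : ℕ) : ℝ) = 1 := by simp [archG, e_zero]
    rw [a1, add_zero] at h1
    rw [a2] at h2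
    rw [← h1, h2]; ring
  have h3 := abel (fun u : ℕ => ((1 - (u : ℝ) / n : ℝ) : ℂ)) (fun u => ((|β| : ℝ) : ℂ) * e (β * u))
    n (1 / 2) (fun t _ => archB_geom β hβ t) (by simp [div_self hn'.ne'])
  have e2 : ∑ m ∈ range n, ‖((1 - ((m + 1 : ℕ) : ℝ) / n : ℝ) : ℂ) - ((1 - (m : ℝ) / n : ℝ) : ℂ)‖ = 1 := by
    have : ∀ m ∈ range n, ‖((1 - ((m + 1 : ℕ) : ℝ) / n : ℝ) : ℂ) - ((1 - (m : ℝ) / n : ℝ) : ℂ)‖ =
        1 / n := by
      intro m _
      rw [← Complex.ofReal_sub, Complex.norm_real, Real.norm_eq_abs]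
      have : (1 - ((m + 1 : ℕ) : ℝ) / n) - (1 - (m : ℝ) / n) = -(1 / n) := by
        push_cast; ring
      rw [this, abs_neg, abs_of_pos (by positivity)]
    rw [sum_congr rfl this, sum_const, card_range, nsmul_eq_mul]
    field_simp
  rw [e2, mul_one] at h3
  have e3 : ∑ m ∈ range n, ((1 - (m : ℝ) / n : ℝ) : ℂ) * (((|β| : ℝ) : ℂ) * e (β * m)) =
      ((|β| : ℝ) : ℂ) * ∑ u ∈ range n, archG n β (u : ℝ) := by
    rw [mul_sum]
    exact sum_congr rfl fun m _ => by unfold archG; ring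
  rw [e3, norm_mul, Complex.norm_real, Real.norm_eq_abs, abs_abs] at h3
  rw [e1]
  have h4 := norm_sub_le (∑ u ∈ range n, archG n β (u : ℝ)) 1
  rw [norm_one] at h4
  have h5 := mul_le_mul_of_nonneg_left h4 (abs_nonneg β)
  linarith

theorem archB_cmp (hH : Cvx H) (hX : 0 < H M) (L : ℝ) (hL : (H M : ℝ) - H (M - 1) ≤ L) (β : ℝ) :
    ‖∑ m ∈ range M, (phi H M m : ℂ) * e (β * H m) -
      ∑ u ∈ range (H M).toNat, archG (H M) β ((u + 1 : ℕ) : ℝ)‖ ≤
      H 0 + L * (1 + 2 * Real.pi * |β| * H M) := by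
  have hX' : (0 : ℝ) < H M := by exact_mod_cast hX
  have hL0 : 0 ≤ L := (hH.step_nonneg M).trans hL
  have hc : ∀ m, (((H m).toNat : ℕ) : ℝ) = H m := fun m => by
    have : 0 ≤ H m := by exact_mod_cast hH.nonnegR m
    exact_mod_cast Int.toNat_of_nonneg this
  obtain ⟨K, hK⟩ : ∃ K : ℝ, K = 1 / (H M : ℝ) + 2 * Real.pi * |β| := ⟨_, rfl⟩
  have hK0 : 0 ≤ K := by rw [hK]; positivity
  obtain ⟨T, hT⟩ : ∃ T : ℕ → ℂ, T = fun n => ∑ u ∈ range n, archG (H M) β ((u + 1 : ℕ) : ℝ) :=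
    ⟨_, rfl⟩
  have e1 : ∑ m ∈ range M, (phi H M m : ℂ) * e (β * H m) =
      ∑ m ∈ range M, (((H (m + 1) : ℝ) - H m : ℝ) : ℂ) * archG (H M) β (H (m + 1)) := by
    rw [sum_phi_shift _ (by simp [phi_zero]) (by simp [phi_top hX])]
    refine sum_congr rfl fun m _ => ?_
    rw [phi, Nat.add_sub_cancel, archG, Complex.ofReal_mul, mul_assoc]
  have key : ∀ m ∈ range M, ‖(T (H (m + 1)).toNat - T (H m).toNat) -
      (((H (m + 1) : ℝ) - H m : ℝ) : ℂ) * archG (H M) β (H (m + 1))‖ ≤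
        K * L * ((H (m + 1) : ℝ) - H m) := by
    intro m hm
    have hm' : m + 1 ≤ M := mem_range.1 hm
    have hab : (H m).toNat ≤ (H (m + 1)).toNat := Int.toNat_le_toNat (hH.mono m)
    have hl : (H (m + 1) : ℝ) - H m ≤ L := by
      have := (hH.step_mono hm').trans hL
      rwa [Nat.add_sub_cancel] at this
    have ecard : ((Ico (H m).toNat (H (m + 1)).toNat).card : ℝ) = (H (m + 1) : ℝ) - H m := by
      rw [Nat.card_Ico, Nat.cast_sub hab, hc, hc]
    have e2 : (T (H (m + 1)).toNat - T (H m).toNat) -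
        (((H (m + 1) : ℝ) - H m : ℝ) : ℂ) * archG (H M) β (H (m + 1)) =
        ∑ u ∈ Ico (H m).toNat (H (m + 1)).toNat,
          (archG (H M) β ((u + 1 : ℕ) : ℝ) - archG (H M) β (H (m + 1))) := by
      rw [sum_sub_distrib, sum_const, nsmul_eq_mul, ← ecard, hT, sum_Ico_eq_sub _ hab]
      simp
    rw [e2]
    refine (norm_sum_le _ _).trans ?_
    have h1 := sum_le_card_nsmul (Ico (H m).toNat (H (m + 1)).toNat)
      (fun u => ‖archG (H M) β ((u + 1 : ℕ) : ℝ) - archG (H M) β (H (m + 1))‖) (K * L)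
      fun u hu => by
        have hu' := mem_Ico.1 hu
        have a1 : ((u + 1 : ℕ) : ℝ) ≤ H (m + 1) := by
          rw [← hc]; exact_mod_cast hu'.2
        have a2 : (H m : ℝ) ≤ ((u + 1 : ℕ) : ℝ) := by
          rw [← hc]; exact_mod_cast hu'.1.trans (Nat.le_succ u)
        refine (archB_lip (H M) β _ _ hX' (hH.nonnegR _) a1 (hH.monoR hm')).trans ?_
        rw [← hK]
        exact mul_le_mul_of_nonneg_left (by linarith) hK0
    rw [nsmul_eq_mul, ecard] at h1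
    linarith
  have h2 := (norm_sum_le _ _).trans (sum_le_sum key)
  rw [sum_sub_distrib, sum_range_sub fun m => T (H m).toNat, ← mul_sum,
    sum_range_sub fun m => (H m : ℝ), ← e1] at h2
  have h3 : ‖T (H 0).toNat‖ ≤ H 0 := by
    rw [hT]
    refine (norm_sum_le _ _).trans ?_
    have := sum_le_card_nsmul (range (H 0).toNat)
      (fun u => ‖archG (H M) β ((u + 1 : ℕ) : ℝ)‖) 1 fun u hu => by
      have a1 : ((u + 1 : ℕ) : ℝ) ≤ H M := by
        refine le_trans ?_ (hH.monoR (Nat.zero_le M))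
        rw [← hc]; exact_mod_cast mem_range.1 hu
      have a2 : 0 ≤ 1 - ((u + 1 : ℕ) : ℝ) / H M := by rw [sub_nonneg, div_le_one hX']; exact a1
      have a3 : 1 - ((u + 1 : ℕ) : ℝ) / H M ≤ 1 := by
        have : 0 ≤ ((u + 1 : ℕ) : ℝ) / H M := by positivity
        linarith
      rw [archG, norm_mul, norm_e, mul_one, Complex.norm_real, Real.norm_eq_abs, abs_of_nonneg a2]
      exact a3
    rwa [card_range, nsmul_eq_mul, mul_one, hc] at this
  have h4 : K * L * ((H M : ℝ) - H 0) ≤ L * (1 + 2 * Real.pi * |β| * H M) := by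
    have a1 : K * L * (H M : ℝ) = L * (1 + 2 * Real.pi * |β| * H M) := by
      rw [hK]; field_simp
    have a2 := mul_nonneg (mul_nonneg hK0 hL0) (hH.nonnegR 0)
    linarith
  have e4 : ∑ u ∈ range (H M).toNat, archG (H M) β ((u + 1 : ℕ) : ℝ) = T (H M).toNat := by rw [hT]
  rw [e4]
  have e5 : ∑ m ∈ range M, (phi H M m : ℂ) * e (β * H m) - T (H M).toNat =
      -((T (H M).toNat - T (H 0).toNat - ∑ m ∈ range M, (phi H M m : ℂ) * e (β * H m)) +
        T (H 0).toNat) := by ring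
  rw [e5, norm_neg]
  refine (norm_add_le _ _).trans ?_
  linarith

theorem phi_norm (hH : Cvx H) (hX : 0 < H M) (L : ℝ) (hL : (H M : ℝ) - H (M - 1) ≤ L) (β : ℝ)
    (hβ : |β| ≤ 1 / 2) :
    |β| * ‖∑ m ∈ range M, (phi H M m : ℂ) * e (β * H m)‖ ≤
      1 + |β| * (1 + H 0 + L * (1 + 2 * Real.pi * |β| * H M)) := by
  have h1 := archB_cmp hH hX L hL β
  have hc : (((H M).toNat : ℕ) : ℝ) = H M := by exact_mod_cast Int.toNat_of_nonneg hX.le
  have h2 := archB_full (H M).toNat (by omega) β hβ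
  rw [hc] at h2
  have h3 := norm_add_le (∑ m ∈ range M, (phi H M m : ℂ) * e (β * H m) -
      ∑ u ∈ range (H M).toNat, archG (H M) β ((u + 1 : ℕ) : ℝ))
    (∑ u ∈ range (H M).toNat, archG (H M) β ((u + 1 : ℕ) : ℝ))
  rw [sub_add_cancel] at h3
  have h4 := mul_le_mul_of_nonneg_left (h3.trans (add_le_add h1 le_rfl)) (abs_nonneg β)
  have h5 := abs_nonneg β
  linarith

theorem phi_small (hH : Cvx H) (hX : 0 < H M) (L : ℝ) (hL : (H M : ℝ) - H (M - 1) ≤ L) (β : ℝ)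
    (hβ : |β| * H M ≤ 1 / 8) :
    (H M : ℝ) / 4 - (1 + H 0 + L) ≤ (∑ m ∈ range M, (phi H M m : ℂ) * e (β * H m)).re := by
  have h1 := sum_phi_ge hH hX L hL
  have hL0 : 0 ≤ L := (hH.step_nonneg M).trans hL
  have h0 := hH.nonnegR 0
  have h2 : ∑ m ∈ range M, phi H M m * (1 / 2) ≤
      (∑ m ∈ range M, (phi H M m : ℂ) * e (β * H m)).re := by
    rw [Complex.re_sum]
    refine sum_le_sum fun m hm => ?_
    have hm' : m ≤ M := (mem_range.1 hm).le
    rw [Complex.re_ofReal_mul, e_re]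
    refine mul_le_mul_of_nonneg_left ?_ (phi_nonneg hH hX hm')
    have a1 : |β * H m| ≤ 1 / 8 := by
      rw [abs_mul, abs_of_nonneg (hH.nonnegR m)]
      exact (mul_le_mul_of_nonneg_left (hH.monoR hm') (abs_nonneg β)).trans hβ
    have hp := Real.pi_pos
    have a2 : |2 * Real.pi * (β * H m)| ≤ 1 := by
      rw [abs_mul, abs_of_pos (by positivity : (0 : ℝ) < 2 * Real.pi)]
      have := Real.pi_le_four
      nlinarith [abs_nonneg (β * H m)]
    have a3 := Real.one_sub_sq_div_two_le_cos (x := 2 * Real.pi * (β * H m))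
    have a4 : (2 * Real.pi * (β * H m)) ^ 2 ≤ 1 := by
      rw [← sq_abs]
      exact pow_le_one₀ (abs_nonneg _) a2
    linarith
  rw [← sum_mul] at h2
  linarith

end Vale.Agent.P042V
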