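import Vale.Agent.P042V.Defs

/-! Multiplicative weights without positivity. -/

namespace Vale.Agent.P042V

open Polynomial Finset Vale.Agent.P042U

variable {h : ℤ[X]} {σ : ℝ} {γ : ℕ → ℕ → ℤ → ℝ}

theorem gl_pp0 (hγ : ∀ p : ℕ, p.Prime → Loc0 h σ p (γ p)) {p : ℕ} (hp : p.Prime) (j : ℕ) :
    gl γ (p ^ j) = γ p j := by
  funext m
  rcases Nat.eq_zero_or_pos j with rfl | hj
  · rw [pow_zero, gl_one, (hγ p hp).zero]
  · unfold gl
    rw [Nat.primeFactors_prime_pow hj.ne' hp, prod_singleton, Nat.factorization_pow_self hp]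

theorem gl_per0 (hγ : ∀ p : ℕ, p.Prime → Loc0 h σ p (γ p)) (d : ℕ) :
    Function.Periodic (gl γ d) (d : ℤ) := by
  intro m
  unfold gl
  refine prod_congr rfl fun p hp => ?_
  have hpp : p.Prime := Nat.prime_of_mem_primeFactors hp
  obtain ⟨c, hc⟩ := Nat.ordProj_dvd d p
  have := ((hγ p hpp).per (d.factorization p)).int_mul (c : ℤ) m
  rw [← this]; congr 2
  conv_lhs => rw [hc]
  push_cast; ring

theorem gl_bd0 (hγ : ∀ p : ℕ, p.Prime → Loc0 h σ p (γ p)) (d : ℕ) (hd : 1 ≤ d) (m : ℤ) :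
    |gl γ d m| ≤ (d : ℝ) ^ 2 := by
  unfold gl
  rw [abs_prod]
  have e1 : (d : ℝ) = ∏ p ∈ d.primeFactors, ((p ^ d.factorization p : ℕ) : ℝ) := by
    rw [← Nat.cast_prod]
    congr 1
    exact (Nat.prod_primeFactors_pow_factorization (by omega))
  conv_rhs => rw [e1]
  rw [← prod_pow]
  refine prod_le_prod (fun p _ => abs_nonneg _) fun p hp => ?_
  exact (hγ p (Nat.prime_of_mem_primeFactors hp)).bd _ _

theorem gl_van0 (hγ : ∀ p : ℕ, p.Prime → Loc0 h σ p (γ p)) {d q : ℕ} (hd : 1 ≤ d) (hq : 1 ≤ q)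
    (hdq : ¬ d ∣ q) (a : ℤ) : Del h (gl γ d) d q a = 0 := by
  have hd0 : d ≠ 0 := by omega
  have hq0 : q ≠ 0 := by omega
  rw [← Nat.factorization_prime_le_iff_dvd hd0 hq0] at hdq
  push Not at hdq
  obtain ⟨p, hp, hlt⟩ := hdq
  obtain ⟨j, d', hd', rfl⟩ := Nat.exists_eq_pow_mul_and_not_dvd hd0 p hp.ne_one
  obtain ⟨s, q', hq', rfl⟩ := Nat.exists_eq_pow_mul_and_not_dvd hq0 p hp.ne_one
  have hd'0 : d' ≠ 0 := by rintro rfl; simp at hd'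
  have hq'0 : q' ≠ 0 := by rintro rfl; simp at hq'
  have hpj : p ^ j ≠ 0 := pow_ne_zero _ hp.ne_zero
  have hps : p ^ s ≠ 0 := pow_ne_zero _ hp.ne_zero
  rw [Nat.factorization_mul hpj hd'0, Nat.factorization_mul hps hq'0] at hlt
  simp only [Finsupp.coe_add, Pi.add_apply, Nat.factorization_pow_self hp,
    Nat.factorization_eq_zero_of_not_dvd hd', Nat.factorization_eq_zero_of_not_dvd hq',
    add_zero] at hlt
  have cd : Nat.Coprime p d' := (Nat.Prime.coprime_iff_not_dvd hp).2 hd'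
  have cq : Nat.Coprime p q' := (Nat.Prime.coprime_iff_not_dvd hp).2 hq'
  have c1 : Nat.Coprime (p ^ j) d' := Nat.Coprime.pow_left _ cd
  have c2 : Nat.Coprime (p ^ s) q' := Nat.Coprime.pow_left _ cq
  have c3 : Nat.Coprime (p ^ j * p ^ s) (d' * q') := by
    rw [← pow_add]
    exact Nat.Coprime.pow_left _ (Nat.Coprime.mul_right cd cq)
  obtain ⟨u, v, huv⟩ : IsCoprime ((p ^ s : ℕ) : ℤ) (q' : ℤ) := Nat.isCoprime_iff_coprime.2 c2
  have ea : a = (a * v) * (q' : ℕ) + (a * u) * ((p ^ s : ℕ) : ℤ) := by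
    calc a = a * 1 := by ring
      _ = a * (u * ((p ^ s : ℕ) : ℤ) + v * (q' : ℤ)) := by rw [huv]
      _ = _ := by ring
  rw [gl_mul γ c1 (Nat.pos_of_ne_zero hpj) (Nat.pos_of_ne_zero hd'0), ea,
    Del_mul h (gl_per0 hγ _) (gl_per0 hγ _) (Nat.pos_of_ne_zero hps) (Nat.pos_of_ne_zero hq'0) c3,
    gl_pp0 hγ hp, (hγ p hp).van s j _ hlt, zero_mul]

theorem Del_split0 (hγ : ∀ p : ℕ, p.Prime → Loc0 h σ p (γ p)) {q₁ q₂ : ℕ} (h₁ : 1 ≤ q₁)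
    (h₂ : 1 ≤ q₂) (hc : Nat.Coprime q₁ q₂) (a : ℤ) : ∃ a₁ a₂ : ℤ, ∀ d₁ d₂ : ℕ, d₁ ∣ q₁ → d₂ ∣ q₂ →
      Del h (gl γ (d₁ * d₂)) (d₁ * d₂) (q₁ * q₂) a =
        Del h (gl γ d₁) d₁ q₁ a₁ * Del h (gl γ d₂) d₂ q₂ a₂ := by
  obtain ⟨u, v, huv⟩ := Nat.isCoprime_iff_coprime.2 hc
  refine ⟨a * v, a * u, fun d₁ d₂ hd₁ hd₂ => ?_⟩
  have c1 : Nat.Coprime d₁ q₂ := Nat.Coprime.coprime_dvd_left hd₁ hc
  have c2 : Nat.Coprime d₁ d₂ := Nat.Coprime.coprime_dvd_right hd₂ c1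
  have c3 : Nat.Coprime q₁ d₂ := Nat.Coprime.coprime_dvd_right hd₂ hc
  have hcc : Nat.Coprime (d₁ * q₁) (d₂ * q₂) :=
    Nat.Coprime.mul_left (Nat.Coprime.mul_right c2 c1) (Nat.Coprime.mul_right c3 hc)
  rw [gl_mul γ c2 (Nat.pos_of_dvd_of_pos hd₁ h₁) (Nat.pos_of_dvd_of_pos hd₂ h₂),
    ← Del_mul h (gl_per0 hγ d₁) (gl_per0 hγ d₂) h₁ h₂ hcc]
  congr 1
  linear_combination (-a) * huv

theorem gl_sm0 (hγ : ∀ p : ℕ, p.Prime → Loc0 h σ p (γ p)) (q : ℕ) (hq : 1 ≤ q) :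
    ∀ d : ℕ, d ∣ q → ∀ a : ℤ,
      ‖Del h (gl γ d) d q a‖ ≤ 2 ^ d.primeFactors.card * (d : ℝ) ^ (-σ) := by
  induction q using Nat.recOnPrimeCoprime with
  | zero => omega
  | prime_pow p n hp =>
    intro d hd a
    obtain ⟨j, -, rfl⟩ := (Nat.dvd_prime_pow hp).1 hd
    rcases Nat.eq_zero_or_pos j with rfl | hj
    · simpa using norm_Del_one γ (p ^ n) a
    · rw [gl_pp0 hγ hp, Nat.primeFactors_prime_pow hj.ne' hp, card_singleton, pow_one]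
      exact (hγ p hp).sm n j a hj
  | coprime q₁ q₂ h₁ h₂ hc ih₁ ih₂ =>
    intro d hd a
    obtain ⟨d₁, d₂, hd₁, hd₂, rfl⟩ := exists_dvd_and_dvd_of_dvd_mul hd
    obtain ⟨a₁, a₂, ha⟩ := Del_split0 hγ h₁.le h₂.le hc a
    have c2 : Nat.Coprime d₁ d₂ :=
      Nat.Coprime.coprime_dvd_right hd₂ (Nat.Coprime.coprime_dvd_left hd₁ hc)
    rw [ha d₁ d₂ hd₁ hd₂, norm_mul, c2.primeFactors_mul,
      card_union_of_disjoint c2.disjoint_primeFactors, pow_add, Nat.cast_mul,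
      Real.mul_rpow (Nat.cast_nonneg _) (Nat.cast_nonneg _)]
    calc _ ≤ (2 ^ d₁.primeFactors.card * (d₁ : ℝ) ^ (-σ)) *
          (2 ^ d₂.primeFactors.card * (d₂ : ℝ) ^ (-σ)) :=
          mul_le_mul (ih₁ h₁.le d₁ hd₁ a₁) (ih₂ h₂.le d₂ hd₂ a₂) (norm_nonneg _) (by positivity)
      _ = _ := by ring

/-- the truncation error -/
theorem gl_tail0 (hσ : 0 < σ) (hγ : ∀ p : ℕ, p.Prime → Loc0 h σ p (γ p)) (q : ℕ) (hq : 1 ≤ q)
    (Q : ℕ) (hQ : 1 ≤ Q) (a : ℤ) :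
    ‖∑ d ∈ Icc 1 Q, Del h (gl γ d) d q a - ∑ d ∈ q.divisors, Del h (gl γ d) d q a‖ ≤
      (q.divisors.card : ℝ) ^ 2 * (Q : ℝ) ^ (-σ) := by
  have e1 : ∑ d ∈ Icc 1 Q, Del h (gl γ d) d q a =
      ∑ d ∈ q.divisors with d ≤ Q, Del h (gl γ d) d q a := by
    symm
    refine sum_subset (fun d hd => ?_) fun d hd hn => ?_
    · rw [mem_filter] at hd
      exact mem_Icc.2 ⟨Nat.pos_of_mem_divisors hd.1, hd.2⟩
    · rw [mem_Icc] at hd
      refine gl_van0 hγ hd.1 hq (fun hdq => hn ?_) a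
      exact mem_filter.2 ⟨Nat.mem_divisors.2 ⟨hdq, by omega⟩, hd.2⟩
  rw [e1, ← sum_filter_add_sum_filter_not q.divisors (fun d => d ≤ Q), sub_add_cancel_left,
    norm_neg]
  have hQ0 : (0 : ℝ) < Q := by exact_mod_cast hQ
  have hb : ∀ d ∈ q.divisors.filter fun d => ¬ d ≤ Q,
      ‖Del h (gl γ d) d q a‖ ≤ (q.divisors.card : ℝ) * (Q : ℝ) ^ (-σ) := by
    intro d hd
    rw [mem_filter] at hd
    have hdq := Nat.dvd_of_mem_divisors hd.1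
    have hd1 := Nat.pos_of_mem_divisors hd.1
    refine (gl_sm0 hγ q hq d hdq a).trans (mul_le_mul ?_ ?_ (by positivity) (by positivity))
    · have h1 := two_pow_omega_le d hd1
      have h2 : d.divisors.card ≤ q.divisors.card :=
        card_le_card (Nat.divisors_subset_of_dvd (by omega) hdq)
      exact_mod_cast h1.trans h2
    · refine Real.rpow_le_rpow_of_nonpos hQ0 ?_ (by linarith)
      exact_mod_cast (not_le.1 hd.2).le
  refine (norm_sum_le _ _).trans ((sum_le_card_nsmul _ _ _ hb).trans ?_)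
  rw [nsmul_eq_mul]
  have h1 : ((q.divisors.filter fun d => ¬ d ≤ Q).card : ℝ) ≤ q.divisors.card := by
    exact_mod_cast card_filter_le _ _
  calc _ ≤ (q.divisors.card : ℝ) * ((q.divisors.card : ℝ) * (Q : ℝ) ^ (-σ)) :=
        mul_le_mul_of_nonneg_right h1 (by positivity)
    _ = _ := by ring

/-- the full multiplier is multiplicative -/
theorem gl_full_mul (hγ : ∀ p : ℕ, p.Prime → Loc0 h σ p (γ p)) {q₁ q₂ : ℕ} (h₁ : 1 ≤ q₁)
    (h₂ : 1 ≤ q₂) (hc : Nat.Coprime q₁ q₂) (a₁ a₂ : ℤ) :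
    ∑ d ∈ (q₁ * q₂).divisors, Del h (gl γ d) d (q₁ * q₂) (a₁ * q₂ + a₂ * q₁) =
      (∑ d ∈ q₁.divisors, Del h (gl γ d) d q₁ a₁) * ∑ d ∈ q₂.divisors, Del h (gl γ d) d q₂ a₂ := by
  rw [sum_mul_sum, ← sum_product', Nat.divisors_mul, mul_def, sum_image hc.mul_injOn_divisors]
  refine sum_congr rfl fun x hx => ?_
  rw [mem_product] at hx
  have hd₁ := Nat.dvd_of_mem_divisors hx.1
  have hd₂ := Nat.dvd_of_mem_divisors hx.2
  have c1 : Nat.Coprime x.1 q₂ := Nat.Coprime.coprime_dvd_left hd₁ hc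
  have c2 : Nat.Coprime x.1 x.2 := Nat.Coprime.coprime_dvd_right hd₂ c1
  have c3 : Nat.Coprime q₁ x.2 := Nat.Coprime.coprime_dvd_right hd₂ hc
  have hcc : Nat.Coprime (x.1 * q₁) (x.2 * q₂) :=
    Nat.Coprime.mul_left (Nat.Coprime.mul_right c2 c1) (Nat.Coprime.mul_right c3 hc)
  rw [gl_mul γ c2 (Nat.pos_of_dvd_of_pos hd₁ h₁) (Nat.pos_of_dvd_of_pos hd₂ h₂),
    Del_mul h (gl_per0 hγ x.1) (gl_per0 hγ x.2) h₁ h₂ hcc]

end Vale.Agent.P042V
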