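import Vale.Agent.P042V.Defs

/-! Combining scales. -/

namespace Vale.Agent.P042V

open Polynomial Finset Vale.Agent.P042U

theorem sector_pos (X : ℕ → ℝ) (h0 : 0 < X 0) (h2 : ∀ i, 2 * X i ≤ X (i + 1)) (i : ℕ) :
    0 < X i := by
  induction i with
  | zero => exact h0
  | succ i ih => linarith [h2 i]

theorem sector_step (X : ℕ → ℝ) (h0 : 0 < X 0) (h2 : ∀ i, 2 * X i ≤ X (i + 1)) (i : ℕ) :
    4 * √(X i) ≤ 3 * √(X (i + 1)) := by
  have a1 := sector_pos X h0 h2 i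
  have a2 := sector_pos X h0 h2 (i + 1)
  rw [← sq_le_sq₀ (by positivity) (by positivity), mul_pow, mul_pow, Real.sq_sqrt a1.le,
    Real.sq_sqrt a2.le]
  linarith [h2 i]

theorem sum_sqrt_le (X : ℕ → ℝ) (h0 : 0 < X 0) (h2 : ∀ i, 2 * X i ≤ X (i + 1)) (I : ℕ) :
    ∑ i ∈ range (I + 1), √(X i) ≤ 4 * √(X I) := by
  induction I with
  | zero =>
    rw [sum_range_one]
    linarith [Real.sqrt_nonneg (X 0)]
  | succ I ih =>
    rw [sum_range_succ]
    linarith [sector_step X h0 h2 I]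

theorem sector_inv (X : ℕ → ℝ) (h0 : 0 < X 0) (h2 : ∀ i, 2 * X i ≤ X (i + 1)) {k n : ℕ}
    (h : k ≤ n) : ∑ i ∈ Ico k n, 1 / √(X i) + 4 * (1 / √(X n)) ≤ 4 * (1 / √(X k)) := by
  induction n, h using Nat.le_induction with
  | base => simp
  | succ n hn ih =>
    rw [sum_Ico_succ_top hn]
    have a1 := Real.sqrt_pos.2 (sector_pos X h0 h2 n)
    have a2 := Real.sqrt_pos.2 (sector_pos X h0 h2 (n + 1))
    have a3 : 4 * (1 / √(X (n + 1))) ≤ 3 * (1 / √(X n)) := by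
      rw [mul_one_div, mul_one_div, div_le_div_iff₀ a2 a1]
      exact sector_step X h0 h2 n
    linarith

theorem sector_first (X : ℕ → ℝ) (h0 : 0 < X 0) (h2 : ∀ i, 2 * X i ≤ X (i + 1)) (I : ℕ) :
    √(X 0) ≤ (3 / 4 : ℝ) ^ I * √(X I) := by
  induction I with
  | zero => simp
  | succ I ih =>
    have a1 := mul_le_mul_of_nonneg_left (sector_step X h0 h2 I)
      (show (0 : ℝ) ≤ (3 / 4 : ℝ) ^ I by positivity)
    rw [pow_succ]
    linarith

theorem sector (R : ℝ) (hR : 2 ≤ R) (I : ℕ) (X : ℕ → ℝ) (h0 : 0 < X 0)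
    (h2 : ∀ i, 2 * X i ≤ X (i + 1)) (hRX : ∀ i, X (i + 1) ≤ R * X i)
    (T J : ℕ → ℂ) (Λ : ℂ) (t δ ε b : ℝ) (ht0 : 0 ≤ t) (ht1 : t ≤ 1) (hδ : 0 ≤ δ) (hε : 0 ≤ ε)
    (hb : 0 ≤ b) (hΛ : ‖Λ - (t : ℂ)‖ ≤ 1 / (200 * R) * t + δ)
    (hT : ∀ i, i ≤ I → ‖T i - Λ * J i‖ ≤ ε * X i)
    (hre : ∀ i, i ≤ I → -(ε * X i) ≤ (J i).re) (hn : ∀ i, i ≤ I → ‖J i‖ ≤ X i)
    (hb1 : ∀ i, i ≤ I → b * ‖J i‖ ≤ 1 + b * (ε * X i))
    (hsm : ∀ i, i ≤ I → b * X i ≤ 1 / 8 → X i / 4 - ε * X i ≤ (J i).re) :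
    -(40 * (ε + δ + (3 / 4 : ℝ) ^ I) * √(X I)) ≤
      (∑ i ∈ range (I + 1), ((1 / √(X i) : ℝ) : ℂ) * T i).re := by
  classical
  have hX := sector_pos X h0 h2
  have hs : ∀ i, 0 < √(X i) := fun i => Real.sqrt_pos.2 (hX i)
  have hXs : ∀ i, 1 / √(X i) * X i = √(X i) := fun i => by
    rw [one_div_mul_eq_div, Real.div_sqrt]
  set c : ℝ := 1 / (200 * R) with hc
  have hc0 : 0 < c := by positivity
  have hcR : c * R = 1 / 200 := by rw [hc]; field_simp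
  have hc1 : c ≤ 1 / 400 := by nlinarith
  set v : ℕ → ℝ := fun i => 1 / √(X i) * ((J i).re - c * ‖J i‖ + 2 * (ε * X i)) with hv
  have h1 : ∀ i ∈ range (I + 1), t * v i - (3 * ε + δ) * √(X i) ≤
      (((1 / √(X i) : ℝ) : ℂ) * T i).re := by
    intro i hi
    have hi' : i ≤ I := Nat.lt_succ_iff.1 (mem_range.1 hi)
    rw [Complex.re_ofReal_mul]
    have e1 : T i = (T i - Λ * J i) + (Λ - t) * J i + t * J i := by ring
    have a1 : -(ε * X i) ≤ (T i - Λ * J i).re :=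
      (neg_le_neg (hT i hi')).trans (abs_le.1 (Complex.abs_re_le_norm _)).1
    have a2 : -((c * t + δ) * ‖J i‖) ≤ ((Λ - t) * J i).re := by
      refine le_trans (neg_le_neg ?_) (abs_le.1 (Complex.abs_re_le_norm _)).1
      rw [norm_mul]
      exact mul_le_mul_of_nonneg_right hΛ (norm_nonneg _)
    have a3 : (T i).re = (T i - Λ * J i).re + ((Λ - t) * J i).re + t * (J i).re := by
      conv_lhs => rw [e1]
      rw [Complex.add_re, Complex.add_re, Complex.re_ofReal_mul]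
    have a4 : δ * ‖J i‖ ≤ δ * X i := mul_le_mul_of_nonneg_left (hn i hi') hδ
    have a5 : t * (ε * X i) ≤ ε * X i :=
      mul_le_of_le_one_left (mul_nonneg hε (hX i).le) ht1
    have a6 : t * ((J i).re - c * ‖J i‖ + 2 * (ε * X i)) - (3 * ε + δ) * X i ≤ (T i).re := by
      nlinarith
    have a7 := mul_le_mul_of_nonneg_left a6 (one_div_pos.2 (hs i)).le
    refine le_trans (le_of_eq ?_) a7
    conv_lhs => rw [← hXs i]
    simp only [hv]
    ring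
  have hex : ∃ k, I < k ∨ 1 / 8 < b * X k := ⟨I + 1, Or.inl (Nat.lt_succ_self I)⟩
  obtain ⟨k, hk, hk'⟩ : ∃ k, (I < k ∨ 1 / 8 < b * X k) ∧
      ∀ i < k, ¬ (I < i ∨ 1 / 8 < b * X i) :=
    ⟨Nat.find hex, Nat.find_spec hex, fun i hi => Nat.find_min hex hi⟩
  have hkI : k ≤ I + 1 := by
    by_contra hc'
    exact hk' (I + 1) (not_le.1 hc') (Or.inl (Nat.lt_succ_self I))
  have h3 : ∀ i < k, (1 / 4 - c) * √(X i) ≤ v i := by
    intro i hi
    have a0 := hk' i hi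
    rw [not_or, not_lt, not_lt] at a0
    have a1 := hsm i a0.1 a0.2
    have a2 := mul_le_mul_of_nonneg_left (hn i a0.1) hc0.le
    have a3 := mul_nonneg hε (hX i).le
    have a6 : (1 / 4 - c) * X i ≤ (J i).re - c * ‖J i‖ + 2 * (ε * X i) := by nlinarith
    have a7 := mul_le_mul_of_nonneg_left a6 (one_div_pos.2 (hs i)).le
    refine le_trans (le_of_eq ?_) a7
    conv_lhs => rw [← hXs i]
    ring
  have h4 : ∀ i ∈ Ico k (I + 1), -(8 * c * X k) * (1 / √(X i)) ≤ v i := by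
    intro i hi
    have hi' := mem_Ico.1 hi
    have hiI : i ≤ I := Nat.lt_succ_iff.1 hi'.2
    have a0 : 1 / 8 < b * X k := hk.resolve_left (by omega)
    have hb' : 0 < b := by
      rcases hb.lt_or_eq with h | h
      · exact h
      · rw [← h] at a0; linarith
    have a1 : ‖J i‖ ≤ 8 * X k + ε * X i := by
      refine le_of_mul_le_mul_left ?_ hb'
      linarith [hb1 i hiI]
    have a2 := mul_le_mul_of_nonneg_left a1 hc0.le
    have a3 := mul_nonneg hε (hX i).le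
    have a4 : c * (ε * X i) ≤ ε * X i := mul_le_of_le_one_left a3 (by linarith)
    have a6 : -(8 * c * X k) ≤ (J i).re - c * ‖J i‖ + 2 * (ε * X i) := by
      linarith [hre i hiI]
    have a7 := mul_le_mul_of_nonneg_left a6 (one_div_pos.2 (hs i)).le
    rw [mul_comm]
    exact a7
  have h5 : -(32 * c * √(X k)) ≤ ∑ i ∈ Ico k (I + 1), v i := by
    refine le_trans ?_ (sum_le_sum h4)
    rw [← mul_sum]
    have a1 := sector_inv X h0 h2 hkI
    have a2 : ∑ i ∈ Ico k (I + 1), 1 / √(X i) ≤ 4 * (1 / √(X k)) := by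
      linarith [one_div_pos.2 (hs (I + 1))]
    have a3 := mul_le_mul_of_nonneg_left a2 (show 0 ≤ 8 * c * X k by have := hX k; positivity)
    have a4 : 8 * c * X k * (4 * (1 / √(X k))) = 32 * c * √(X k) := by
      conv_rhs => rw [← hXs k]
      ring
    linarith
  have hq : 0 ≤ (3 / 4 : ℝ) ^ I * √(X I) := by positivity
  have h6 : -((3 / 4 : ℝ) ^ I * √(X I)) ≤ ∑ i ∈ range (I + 1), v i := by
    rw [← sum_range_add_sum_Ico v hkI]
    cases k with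
    | zero =>
      have a1 := sector_first X h0 h2 I
      have a2 := mul_le_mul_of_nonneg_right hc1 (hs 0).le
      rw [sum_range_zero]
      linarith [hs 0]
    | succ j =>
      have a1 : v j ≤ ∑ i ∈ range (j + 1), v i :=
        single_le_sum (f := v) (fun i hi => le_trans
          (mul_nonneg (by linarith) (hs i).le) (h3 i (mem_range.1 hi))) (self_mem_range_succ j)
      have a2 := h3 j (Nat.lt_succ_self j)
      have a3 : √(X (j + 1)) ≤ R * √(X j) := by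
        rw [← sq_le_sq₀ (hs _).le (mul_nonneg (by linarith) (hs j).le), mul_pow,
          Real.sq_sqrt (hX _).le, Real.sq_sqrt (hX _).le]
        have := mul_le_mul_of_nonneg_right (show R ≤ R ^ 2 by nlinarith) (hX j).le
        linarith [hRX j]
      have a4 := mul_le_mul_of_nonneg_left a3 hc0.le
      rw [← mul_assoc, hcR] at a4
      have a5 := mul_le_mul_of_nonneg_right hc1 (hs j).le
      nlinarith [hs j]
  rw [Complex.re_sum]
  refine le_trans ?_ (sum_le_sum h1)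
  rw [sum_sub_distrib, ← mul_sum, ← mul_sum]
  have a1 := mul_le_mul_of_nonneg_left h6 ht0
  have a2 := mul_le_of_le_one_left hq ht1
  have a3 := mul_le_mul_of_nonneg_left (sum_sqrt_le X h0 h2 I) (show 0 ≤ 3 * ε + δ by linarith)
  have a4 := mul_nonneg hε (hs I).le
  have a5 := mul_nonneg hδ (hs I).le
  nlinarith

theorem Sec.mul {ζ₁ ζ₂ : ℝ} {z₁ z₂ : ℂ} (h₁ : Sec ζ₁ z₁) (h₂ : Sec ζ₂ z₂) (hζ₁ : 0 ≤ ζ₁)
    (hζ₂ : 0 ≤ ζ₂) : Sec ((1 + ζ₁) * (1 + ζ₂) - 1) (z₁ * z₂) := by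
  obtain ⟨t₁, a0, a1, a2⟩ := h₁
  obtain ⟨t₂, b0, b1, b2⟩ := h₂
  have _ := hζ₂
  refine ⟨t₁ * t₂, mul_nonneg a0 b0, mul_le_one₀ a1 b0 b1, ?_⟩
  have e1 : z₁ * z₂ - ((t₁ * t₂ : ℝ) : ℂ) =
      (z₁ - t₁) * (z₂ - t₂) + (t₁ : ℂ) * (z₂ - t₂) + (t₂ : ℂ) * (z₁ - t₁) := by
    push_cast; ring
  rw [e1]
  refine (norm_add₃_le).trans ?_
  rw [norm_mul, norm_mul, norm_mul, Complex.norm_real, Complex.norm_real, Real.norm_eq_abs,
    Real.norm_eq_abs, abs_of_nonneg a0, abs_of_nonneg b0]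
  have c1 := mul_le_mul a2 b2 (norm_nonneg _) (mul_nonneg hζ₁ a0)
  have c2 := mul_le_mul_of_nonneg_left b2 a0
  have c3 := mul_le_mul_of_nonneg_left a2 b0
  nlinarith

theorem Sec.mono {ζ₁ ζ₂ : ℝ} {z : ℂ} (h : Sec ζ₁ z) (hζ : ζ₁ ≤ ζ₂) : Sec ζ₂ z := by
  obtain ⟨t, a0, a1, a2⟩ := h
  exact ⟨t, a0, a1, a2.trans (mul_le_mul_of_nonneg_right hζ a0)⟩

theorem Sec.norm_le {ζ : ℝ} {z : ℂ} (h : Sec ζ z) (hζ : 0 ≤ ζ) : ‖z‖ ≤ 1 + ζ := by
  obtain ⟨t, a0, a1, a2⟩ := h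
  have h1 := norm_add_le (z - t) (t : ℂ)
  rw [sub_add_cancel, Complex.norm_real, Real.norm_eq_abs, abs_of_nonneg a0] at h1
  have h2 := mul_le_of_le_one_right hζ a1
  linarith

theorem one_add_pow_sub_le (ζ : ℝ) (hζ : 0 ≤ ζ) (n : ℕ) (hn : n * ζ ≤ 1) :
    (1 + ζ) ^ n - 1 ≤ 2 * (n * ζ) := by
  have h0 : 0 ≤ n * ζ := by positivity
  have h1 : (1 + ζ) ^ n ≤ Real.exp (n * ζ) := by
    rw [Real.exp_nat_mul]
    exact pow_le_pow_left₀ (by linarith) (by linarith [Real.add_one_le_exp ζ]) n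
  have h2 := Real.abs_exp_sub_one_le (x := n * ζ) (by rwa [abs_of_nonneg h0])
  rw [abs_of_nonneg h0] at h2
  linarith [le_abs_self (Real.exp (n * ζ) - 1)]

end Vale.Agent.P042V
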