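import Vale.Agent.P042V.Tower
import Vale.Agent.P042V.Sector
import Vale.Agent.P042V.MultC

/-! The large primes. -/

namespace Vale.Agent.P042V

open Polynomial Finset Vale.Agent.P042U

theorem LargeS.del_one (f : ℤ[X]) (γ : ℕ → ℕ → ℤ → ℝ) (a : ℤ) : Del f (gl γ 1) 1 1 a = 1 := by
  unfold Del av
  simp only [mul_one, range_one, sum_singleton, gl_one, Nat.cast_one, div_one, e_int]
  simp

theorem large_sec (k : ℕ) : ∃ σ : ℝ, 0 < σ ∧ ∀ f : ℤ[X], f.natDegree ≤ k → ∀ y : ℕ,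
    2 ≤ (y : ℝ) ^ σ → ∀ q : ℕ, 1 ≤ q → (∀ p ∈ q.primeFactors, y < p) → (q : ℤ) ∣ f.coeff 0 →
    ∀ a : ℤ, Sec ((1 + 4 * (y : ℝ) ^ (-σ)) ^ q.primeFactors.card - 1)
      (∑ d ∈ q.divisors, Del f (gl (gamL σ y) d) d q a) := by
  obtain ⟨η, hη, hJ⟩ := tower_J k
  have hσ : 0 < η / 2 := by positivity
  refine ⟨η / 2, hσ, fun f hf y hy q hq => ?_⟩
  have hγ : ∀ p : ℕ, p.Prime → Loc0 f (η / 2) p (gamL (η / 2) y p) :=
    fun p hp => gamL_loc0 f _ hσ y p hp
  have hy0 : (0 : ℝ) < y := by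
    rcases Nat.eq_zero_or_pos y with h0 | h0
    · rw [h0, Nat.cast_zero, Real.zero_rpow hσ.ne'] at hy; linarith
    · exact_mod_cast h0
  have hc0 : 0 ≤ 4 * (y : ℝ) ^ (-(η / 2)) := by positivity
  induction q using Nat.recOnPrimeCoprime with
  | zero => omega
  | prime_pow p n hp =>
    intro hpf hd a
    rcases Nat.eq_zero_or_pos n with rfl | hn
    · simp only [pow_zero, Nat.primeFactors_one, card_empty, sub_self, Nat.divisors_one,
        sum_singleton, LargeS.del_one]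
      exact ⟨1, zero_le_one, le_rfl, by simp⟩
    · rw [Nat.primeFactors_prime_pow hn.ne' hp] at hpf ⊢
      have hyp : y < p := hpf p (mem_singleton_self p)
      have hg : gamL (η / 2) y p = gam (η / 2) p := by
        funext j m
        unfold gamL
        rw [if_pos hyp]
      rw [Nat.sum_divisors_prime_pow hp, card_singleton, pow_one, add_sub_cancel_left]
      simp only [gl_pp0 hγ hp, hg]
      rw [sum_Del_gam f p hp]
      obtain ⟨J, hJs, hJ1, hJ2⟩ := hJ f hf p hp n (by exact_mod_cast hd) a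
      have hp1 : (1 : ℝ) < p := by exact_mod_cast hp.one_lt
      have hp0 : (0 : ℝ) < p := by linarith
      obtain ⟨τ, hτ⟩ : ∃ τ : ℝ, τ = (p : ℝ) ^ (-(η / 2)) := ⟨_, rfl⟩
      have hτ0 : 0 < τ := by rw [hτ]; positivity
      have hτ1 : τ < 1 := by
        rw [hτ]; exact Real.rpow_lt_one_of_one_lt_of_neg hp1 (by linarith)
      have hx : (p : ℝ) ^ (-η) = τ * τ := by
        rw [hτ, ← Real.rpow_add hp0]; congr 1; ring
      have hτy : τ ≤ (y : ℝ) ^ (-(η / 2)) := by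
        rw [hτ]
        exact Real.rpow_le_rpow_of_nonpos hy0 (by exact_mod_cast hyp.le) (by linarith)
      rw [hx] at hJ2
      rw [← hτ]
      refine (tower_sec (thj f p n a) J n (τ * τ) τ _ (by positivity) (by nlinarith) hτ1.le ?_
        (norm_thj_le f p n a) hJ1 hJ2 (by nlinarith)).1 hJs
      have e1 : (1 - τ) * (2 * (τ * τ) / (τ - τ * τ)) = 2 * τ := by
        have : τ - τ * τ = τ * (1 - τ) := by ring
        have h1 : 1 - τ ≠ 0 := by linarith
        rw [this]; field_simp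
      rw [e1]; linarith
  | coprime q₁ q₂ h₁ h₂ hc ih₁ ih₂ =>
    intro hpf hd a
    obtain ⟨u, v, huv⟩ := Nat.isCoprime_iff_coprime.2 hc
    have ha : a = (a * v) * q₂ + (a * u) * q₁ := by linear_combination (-a) * huv
    rw [hc.primeFactors_mul] at hpf ⊢
    rw [Nat.cast_mul] at hd
    have s₁ := ih₁ h₁.le (fun p hp => hpf p (mem_union_left _ hp)) (dvd_of_mul_right_dvd hd) (a * v)
    have s₂ := ih₂ h₂.le (fun p hp => hpf p (mem_union_right _ hp)) (dvd_of_mul_left_dvd hd) (a * u)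
    have s := s₁.mul s₂ (sub_nonneg.mpr (one_le_pow₀ (by linarith)))
      (sub_nonneg.mpr (one_le_pow₀ (by linarith)))
    rw [← gl_full_mul hγ h₁.le h₂.le hc, ← ha, add_sub_cancel, add_sub_cancel, ← pow_add] at s
    rw [card_union_of_disjoint hc.disjoint_primeFactors]
    exact s

theorem gl_gamL_eq_zero (σ : ℝ) (y d p : ℕ) (hd : 1 ≤ d) (hp : p.Prime) (hpd : p ∣ d)
    (hpy : p ≤ y) : gl (gamL σ y) d = fun _ => 0 := by
  funext m
  unfold gl
  refine prod_eq_zero (Nat.mem_primeFactors.mpr ⟨hp, hpd, by omega⟩) ?_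
  unfold gamL
  rw [if_neg (by omega), if_neg (hp.factorization_pos_of_dvd (by omega) hpd).ne']

/-- splitting the multiplier into its small and large parts -/
theorem Lam_split (f : ℤ[X]) (σ : ℝ) (hσ : 0 < σ) (y W : ℕ) (B : ℤ → ℝ)
    (hB : Function.Periodic B (W : ℤ)) (hW : 1 ≤ W) (hWy : ∀ p ∈ W.primeFactors, p ≤ y)
    (Q q₁ q₂ : ℕ) (h₁ : 1 ≤ q₁) (h₂ : 1 ≤ q₂) (hq₁ : ∀ p ∈ q₁.primeFactors, p ≤ y)
    (hq₂ : ∀ p ∈ q₂.primeFactors, y < p) (a₁ a₂ : ℤ) :
    Lam f B (gl (gamL σ y)) W Q (q₁ * q₂) (a₁ * q₂ + a₂ * q₁) =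
      Del f B W q₁ a₁ * ∑ d ∈ Icc 1 Q, Del f (gl (gamL σ y) d) d q₂ a₂ := by
  unfold Lam
  rw [mul_sum]
  refine sum_congr rfl fun d hd => ?_
  have hd1 : 1 ≤ d := (mem_Icc.mp hd).1
  by_cases hs : ∃ p, p.Prime ∧ p ∣ d ∧ p ≤ y
  · obtain ⟨p, hp, hpd, hpy⟩ := hs
    rw [gl_gamL_eq_zero σ y d p hd1 hp hpd hpy]
    unfold Del av
    simp
  · refine Del_mul f hB (gl_per0 (fun p hp => gamL_loc0 f σ hσ y p hp) d) h₁ h₂ ?_ a₁ a₂
    refine Nat.coprime_of_dvd fun p hp h1 h2 => ?_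
    have hpy : p ≤ y := by
      rcases (Nat.Prime.dvd_mul hp).mp h1 with h | h
      · exact hWy p (Nat.mem_primeFactors.mpr ⟨hp, h, by omega⟩)
      · exact hq₁ p (Nat.mem_primeFactors.mpr ⟨hp, h, by omega⟩)
    rcases (Nat.Prime.dvd_mul hp).mp h2 with h | h
    · exact hs ⟨p, hp, h, hpy⟩
    · have := hq₂ p (Nat.mem_primeFactors.mpr ⟨hp, h, by omega⟩)
      omega

theorem LargeS.step {p a : ℕ} (hp : p.Prime) (ha : a ≠ 0) {P : ℕ → Prop} (h1 : P p)
    (h2 : ∀ r ∈ a.primeFactors, P r) : ∀ r ∈ (p * a).primeFactors, P r := by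
  intro r hr
  rw [Nat.primeFactors_mul hp.ne_zero ha, hp.primeFactors, mem_union, mem_singleton] at hr
  rcases hr with rfl | hr
  · exact h1
  · exact h2 r hr

theorem exists_smooth_rough (q y : ℕ) (hq : 1 ≤ q) : ∃ q₁ q₂ : ℕ, q = q₁ * q₂ ∧
    (∀ p ∈ q₁.primeFactors, p ≤ y) ∧ (∀ p ∈ q₂.primeFactors, y < p) := by
  induction q using induction_on_primes with
  | zero => omega
  | one => exact ⟨1, 1, rfl, by simp, by simp⟩
  | prime_mul p a hp ih =>
    have ha : a ≠ 0 := by rintro rfl; omega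
    obtain ⟨q₁, q₂, rfl, h₁, h₂⟩ := ih (by omega)
    by_cases hpy : p ≤ y
    · exact ⟨p * q₁, q₂, by ring, LargeS.step hp (left_ne_zero_of_mul ha) hpy h₁, h₂⟩
    · exact ⟨q₁, p * q₂, by ring, h₁,
        LargeS.step hp (right_ne_zero_of_mul ha) (not_le.mp hpy) h₂⟩

end Vale.Agent.P042V
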