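import Vale.Agent.P042V.Defs

/-! Major and minor arcs at one scale. -/

namespace Vale.Agent.P042V

open Polynomial Finset Vale.Agent.P042U

variable {h : ℤ[X]}

theorem Cvex.per {W : ℕ} {ρ : ℤ} {B : ℤ → ℝ} (hB : Cvex W ρ B) :
    Function.Periodic B (W : ℤ) := by
  obtain ⟨ι, s, n, c, h1, -, h3⟩ := hB
  intro m
  rw [h3, h3]
  refine sum_congr rfl fun i hi => ?_
  have hd : (n i : ℤ) ∣ (W : ℤ) := Int.natCast_dvd_natCast.2 (h1 i hi).1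
  have : (n i : ℤ) ∣ m + W - ρ ↔ (n i : ℤ) ∣ m - ρ := by
    rw [show m + W - ρ = m - ρ + W by ring]
    exact (dvd_add_left hd)
  simp only [ind, this]

theorem Cvex.bd {W : ℕ} {ρ : ℤ} {B : ℤ → ℝ} (hB : Cvex W ρ B) (hW : 1 ≤ W) (m : ℤ) :
    |B m| ≤ W := by
  obtain ⟨ι, s, n, c, h1, h2, h3⟩ := hB
  have h4 : ∀ i ∈ s, 0 ≤ ind (n i) ρ m ∧ ind (n i) ρ m ≤ W := fun i hi => by
    have : (n i : ℝ) ≤ W := by exact_mod_cast Nat.le_of_dvd hW (h1 i hi).1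
    unfold ind
    split_ifs
    · exact ⟨Nat.cast_nonneg _, this⟩
    · exact ⟨le_rfl, Nat.cast_nonneg _⟩
  rw [h3, abs_of_nonneg (sum_nonneg fun i hi => mul_nonneg (h1 i hi).2 (h4 i hi).1)]
  refine (sum_le_sum fun i hi => mul_le_mul_of_nonneg_left (h4 i hi).2 (h1 i hi).2).trans ?_
  rw [← sum_mul, h2, one_mul]

theorem majS_part {W : ℕ} {ρ : ℤ} {B : ℤ → ℝ} {g : ℕ → ℤ → ℝ} (hW : 1 ≤ W) (hB : Cvex W ρ B)
    (hper : ∀ d : ℕ, Function.Periodic (g d) (d : ℤ))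
    (hbd : ∀ d : ℕ, 1 ≤ d → ∀ m, |g d m| ≤ (d : ℝ) ^ 2) (Q q : ℕ) (hq : 1 ≤ q) (a : ℤ) (t : ℕ) :
    ‖∑ m ∈ range t, (((B m * wt g Q m : ℝ) : ℂ) * e ((a * h.eval (m : ℤ) : ℤ) / (q : ℝ)) -
        Lam h B g W Q q a)‖ ≤ 2 * q * (W : ℝ) ^ 2 * (Q : ℝ) ^ 4 := by
  have h1 : ∑ m ∈ range t, (((B m * wt g Q m : ℝ) : ℂ) * e ((a * h.eval (m : ℤ) : ℤ) / (q : ℝ)) -
        Lam h B g W Q q a) =
      ∑ d ∈ Icc 1 Q, ∑ m ∈ range t,
        (((B m * g d m : ℝ) : ℂ) * e ((a * h.eval (m : ℤ) : ℤ) / (q : ℝ)) -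
          Del h (fun m => B m * g d m) (W * d) q a) := by
    rw [Finset.sum_comm]
    refine Finset.sum_congr rfl fun m _ => ?_
    rw [Finset.sum_sub_distrib, ← Finset.sum_mul]
    unfold wt Lam
    rw [mul_sum]
    push_cast
    rfl
  rw [h1]
  refine (norm_sum_le _ _).trans ?_
  have h2 : ∀ d ∈ Icc 1 Q, ‖∑ m ∈ range t,
        (((B m * g d m : ℝ) : ℂ) * e ((a * h.eval (m : ℤ) : ℤ) / (q : ℝ)) -
          Del h (fun m => B m * g d m) (W * d) q a)‖ ≤ 2 * q * (W : ℝ) ^ 2 * (Q : ℝ) ^ 3 := by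
    intro d hd
    obtain ⟨hd1, hdQ⟩ := Finset.mem_Icc.mp hd
    have hD : 1 ≤ W * d * q := Nat.mul_pos (Nat.mul_pos hW hd1) hq
    have hp : Function.Periodic (fun m : ℤ => ((B m * g d m : ℝ) : ℂ) *
        e ((a * h.eval m : ℤ) / (q : ℝ))) ((W * d * q : ℕ) : ℤ) := by
      intro m
      have e1 : B (m + ((W * d * q : ℕ) : ℤ)) = B m := by
        have := hB.per.int_mul ((d : ℤ) * q) m
        rw [← this]; congr 1; push_cast; ring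
      have e2 : g d (m + ((W * d * q : ℕ) : ℤ)) = g d m := by
        have := (hper d).int_mul ((W : ℤ) * q) m
        rw [← this]; congr 1; push_cast; ring
      have e3 := (per_e' h q a).int_mul ((W : ℤ) * d) m
      have e4 : m + ((W * d * q : ℕ) : ℤ) = m + ((W : ℤ) * d) * (q : ℤ) := by push_cast; ring
      simp only [Int.cast_id] at e3
      simp only [e1, e2]
      rw [e4, e3]
    have hn : ∀ m : ℤ, ‖((B m * g d m : ℝ) : ℂ) * e ((a * h.eval m : ℤ) / (q : ℝ))‖ ≤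
        W * (d : ℝ) ^ 2 := fun m => by
      rw [norm_mul, norm_e, mul_one, Complex.norm_real, Real.norm_eq_abs, abs_mul]
      exact mul_le_mul (hB.bd hW m) (hbd d hd1 m) (abs_nonneg _) (Nat.cast_nonneg _)
    refine (sum_sub_av_le hD hp _ hn t).trans ?_
    have hdQ' : (d : ℝ) ≤ Q := by exact_mod_cast hdQ
    have h3 : (d : ℝ) ^ 3 ≤ (Q : ℝ) ^ 3 := by gcongr
    have h4 := mul_le_mul_of_nonneg_left h3 (show (0 : ℝ) ≤ 2 * q * (W : ℝ) ^ 2 by positivity)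
    refine le_trans (le_of_eq ?_) h4
    push_cast
    ring
  refine (Finset.sum_le_card_nsmul _ _ _ h2).trans (le_of_eq ?_)
  simp only [Nat.card_Icc, Nat.add_sub_cancel, nsmul_eq_mul]
  ring

theorem majS (hH : Cvx (fun m : ℕ => h.eval (m : ℤ))) (M : ℕ)
    (hX : 0 < h.eval (M : ℤ)) (L : ℝ)
    (hL : ((h.eval (M : ℤ) : ℤ) : ℝ) - (h.eval ((M - 1 : ℕ) : ℤ) : ℤ) ≤ L)
    {W : ℕ} {ρ : ℤ} {B : ℤ → ℝ} {g : ℕ → ℤ → ℝ} (hW : 1 ≤ W) (hB : Cvex W ρ B)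
    (hper : ∀ d : ℕ, Function.Periodic (g d) (d : ℤ))
    (hbd : ∀ d : ℕ, 1 ≤ d → ∀ m, |g d m| ≤ (d : ℝ) ^ 2)
    (Q q : ℕ) (hq : 1 ≤ q) (a : ℤ) (β : ℝ) :
    ‖∑ m ∈ range M, ((B m * wt g Q m * phi (fun m : ℕ => h.eval (m : ℤ)) M m : ℝ) : ℂ) *
          e ((a / q + β) * (h.eval (m : ℤ) : ℤ)) -
        Lam h B g W Q q a *
          ∑ m ∈ range M, (phi (fun m : ℕ => h.eval (m : ℤ)) M m : ℂ) * e (β * (h.eval (m : ℤ) : ℤ))‖
      ≤ 2 * q * (W : ℝ) ^ 2 * (Q : ℝ) ^ 4 *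
        (L * (2 + 2 * Real.pi * |β| * (h.eval (M : ℤ) : ℤ))) := by
  set H : ℕ → ℤ := fun m : ℕ => h.eval (m : ℤ) with hHd
  have hab := abel (fun m => (phi H M m : ℂ) * e (β * H m))
    (fun m => ((B m * wt g Q m : ℝ) : ℂ) * e ((a * h.eval (m : ℤ) : ℤ) / (q : ℝ)) -
        Lam h B g W Q q a) M (2 * q * (W : ℝ) ^ 2 * (Q : ℝ) ^ 4)
    (fun t _ => majS_part hW hB hper hbd Q q hq a t) (by simp only [phi_top (H := H) hX]; simp)
  have hv := phi_var hH hX L hL β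
  refine le_trans (le_of_eq ?_) (hab.trans (mul_le_mul_of_nonneg_left hv (by positivity)))
  congr 1
  rw [Finset.mul_sum, ← Finset.sum_sub_distrib]
  refine Finset.sum_congr rfl fun m _ => ?_
  have he : e ((a / q + β) * (h.eval (m : ℤ) : ℤ)) =
      e ((a * h.eval (m : ℤ) : ℤ) / (q : ℝ)) * e (β * H m) := by
    rw [← e_add]; congr 1; simp only [hHd]; push_cast; ring
  rw [he]
  simp only [hHd]
  push_cast
  ring

theorem minS (hH : Cvx (fun m : ℕ => h.eval (m : ℤ))) (M : ℕ)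
    (hX : 0 < h.eval (M : ℤ)) (L : ℝ)
    (hL : ((h.eval (M : ℤ) : ℤ) : ℝ) - (h.eval ((M - 1 : ℕ) : ℤ) : ℤ) ≤ L)
    (w : ℕ → ℝ) (α Bd : ℝ)
    (hB : ∀ t, t ≤ M → ‖∑ m ∈ range t, (w m : ℂ) * e (α * (h.eval (m : ℤ) : ℤ))‖ ≤ Bd) :
    ‖∑ m ∈ range M, ((w m * phi (fun m : ℕ => h.eval (m : ℤ)) M m : ℝ) : ℂ) *
          e (α * (h.eval (m : ℤ) : ℤ))‖ ≤ 2 * Bd * L := by
  set H : ℕ → ℤ := fun m : ℕ => h.eval (m : ℤ) with hHd
  have hab := abel (fun m => (phi H M m : ℂ) * e (0 * H m))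
    (fun m => (w m : ℂ) * e (α * (h.eval (m : ℤ) : ℤ))) M Bd hB
    (by simp only [phi_top (H := H) hX]; simp)
  have hv := phi_var hH hX L hL 0
  have hB0 : 0 ≤ Bd := by simpa using hB 0 (Nat.zero_le _)
  refine le_trans (le_of_eq ?_) (hab.trans ((mul_le_mul_of_nonneg_left hv hB0).trans
    (le_of_eq ?_)))
  · congr 1
    refine Finset.sum_congr rfl fun m _ => ?_
    rw [zero_mul, e_zero]
    push_cast
    ring
  · rw [abs_zero]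
    ring

end Vale.Agent.P042V
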