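import Vale.Agent.P042V.SmallS
import Vale.Agent.P042V.LargeS
import Vale.Agent.P042V.MajS

/-! The arithmetic data for a polynomial with a highly divisible constant term. -/

namespace Vale.Agent.P042V

open Polynomial Finset Vale.Agent.P042U

theorem arA_cop {m n y : ℕ} (hm : 1 ≤ m) (hn : 1 ≤ n) (h1 : ∀ p ∈ m.primeFactors, p ≤ y)
    (h2 : ∀ p ∈ n.primeFactors, y < p) : Nat.Coprime m n :=
  Nat.coprime_of_dvd fun p hp a b => by
    have := h1 p (Nat.mem_primeFactors.mpr ⟨hp, a, by omega⟩)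
    have := h2 p (Nat.mem_primeFactors.mpr ⟨hp, b, by omega⟩)
    omega

theorem arA_W (y T : ℕ) : 1 ≤ ∏ p ∈ (Icc 1 y).filter Nat.Prime, p ^ T ∧
    ∏ p ∈ (Icc 1 y).filter Nat.Prime, p ^ T ≤ 2 ^ (y * T * y) ∧
    ∀ p ∈ (∏ p ∈ (Icc 1 y).filter Nat.Prime, p ^ T).primeFactors, p ≤ y := by
  refine ⟨Nat.succ_le_of_lt (prod_pos fun p hp => pow_pos (Nat.Prime.pos (mem_filter.mp hp).2) _),
    ?_, fun p hp => ?_⟩
  · refine (prod_le_pow_card _ _ (2 ^ (y * T)) fun p hp => ?_).trans ?_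
    · rw [pow_mul]
      exact Nat.pow_le_pow_left
        ((mem_Icc.mp (mem_filter.mp hp).1).2.trans Nat.lt_two_pow_self.le) _
    · rw [← pow_mul]
      refine Nat.pow_le_pow_right (by norm_num) (Nat.mul_le_mul_left _ ?_)
      simpa using card_filter_le (Icc 1 y) Nat.Prime
  · have hpp := Nat.prime_of_mem_primeFactors hp
    obtain ⟨p', hp', hd⟩ := (Prime.dvd_finsetProd_iff hpp.prime _).mp
      (Nat.dvd_of_mem_primeFactors hp)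
    exact (Nat.le_of_dvd (mem_filter.mp hp').2.pos (hpp.dvd_of_dvd_pow hd)).trans
      (mem_Icc.mp (mem_filter.mp hp').1).2

theorem arA_tau (L y : ℕ) (hL : 1 ≤ L) (hy : 1 ≤ y) :
    (1 - 1 / ((L : ℝ) * y)) ^ (L ^ 2 * y) ≤ 1 / 2 ^ L := by
  have hL' : (1 : ℝ) ≤ L := by exact_mod_cast hL
  have hy' : (1 : ℝ) ≤ y := by exact_mod_cast hy
  have h0 : 0 ≤ 1 - 1 / ((L : ℝ) * y) := by
    rw [sub_nonneg, div_le_one (by positivity)]; nlinarith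
  have h1 : 1 - 1 / ((L : ℝ) * y) ≤ Real.exp (-(1 / ((L : ℝ) * y))) := by
    linarith [Real.add_one_le_exp (-(1 / ((L : ℝ) * y)))]
  have h2 : Real.exp (-1) ≤ 1 / 2 := by
    rw [Real.exp_neg, ← one_div]
    exact one_div_le_one_div_of_le (by norm_num) (by linarith [Real.add_one_le_exp (1 : ℝ)])
  calc _ ≤ Real.exp (-(1 / ((L : ℝ) * y))) ^ (L ^ 2 * y) := by gcongr
    _ = Real.exp (-1) ^ L := by
      rw [← Real.exp_nat_mul, ← Real.exp_nat_mul]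
      congr 1
      push_cast
      field_simp
    _ ≤ (1 / 2) ^ L := by gcongr
    _ = 1 / 2 ^ L := by rw [one_div_pow]

theorem arA_tail {s Cd : ℝ} (hs : 0 < s) (hC : 0 ≤ Cd) (K Q q : ℕ) (hQ : 1 ≤ Q) (hq : q ≤ Q ^ K)
    {x : ℝ} (hx0 : 0 ≤ x) (hx : x ≤ Cd * (q : ℝ) ^ (s / (4 * (K + 1)))) :
    x ^ 2 * (Q : ℝ) ^ (-s) ≤ Cd ^ 2 * (Q : ℝ) ^ (-min (s / 2) 1) := by
  have hQ' : (1 : ℝ) ≤ Q := by exact_mod_cast hQ
  have hq' : (q : ℝ) ≤ (Q : ℝ) ^ K := by exact_mod_cast hq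
  have h1 : x ≤ Cd * ((Q : ℝ) ^ K) ^ (s / (4 * (K + 1))) := hx.trans (by gcongr)
  calc x ^ 2 * (Q : ℝ) ^ (-s) ≤ (Cd * ((Q : ℝ) ^ K) ^ (s / (4 * (K + 1)))) ^ 2 * (Q : ℝ) ^ (-s) := by
        gcongr
    _ = Cd ^ 2 * (Q : ℝ) ^ (K * (s / (4 * (K + 1))) * (2 : ℕ) + -s) := by
      rw [mul_pow, ← Real.rpow_natCast (Q : ℝ) K, ← Real.rpow_mul (by positivity),
        ← Real.rpow_natCast ((Q : ℝ) ^ _) 2, ← Real.rpow_mul (by positivity), mul_assoc,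
        ← Real.rpow_add (by positivity)]
    _ ≤ _ := by
      refine mul_le_mul_of_nonneg_left (Real.rpow_le_rpow_of_exponent_le hQ' ?_) (by positivity)
      have a1 : (K : ℝ) * (s / (4 * (K + 1))) ≤ s / 4 := by
        rw [← mul_div_assoc, div_le_div_iff₀ (by positivity) (by norm_num)]
        nlinarith
      push_cast
      linarith [min_le_left (s / 2) 1]

theorem arA_fin {D S SQ : ℂ} {c c₀ δ u ζ₁ ζ₂ η : ℝ} (hc0 : 0 ≤ c) (hc1 : c ≤ 1) (hc : c ≤ c₀)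
    (hu : 0 ≤ u) (h1 : ζ₁ ≤ c / 3) (h2 : ζ₂ ≤ c / 3) (hD : ‖D‖ ≤ 1)
    (hη : η ≤ 2 * u) (hD' : ‖D‖ ≤ η ∨ Sec ζ₁ D) (hS : Sec ζ₂ S) (hT : ‖SQ - S‖ ≤ δ * u) :
    ∃ t : ℝ, 0 ≤ t ∧ t ≤ 1 ∧ ‖D * SQ - (t : ℂ)‖ ≤ c₀ * t + (δ + 4) * u := by
  have hS' := hS.mono h2
  have e1 : ‖D * (SQ - S)‖ ≤ δ * u := by
    rw [norm_mul]
    exact (mul_le_of_le_one_left (norm_nonneg _) hD).trans hT
  rcases hD' with h | h
  · refine ⟨0, le_rfl, zero_le_one, ?_⟩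
    have a1 := hS'.norm_le (by positivity)
    have a2 : ‖D * S‖ ≤ 2 * u * 2 := by
      rw [norm_mul]
      exact mul_le_mul (h.trans hη) (by linarith) (norm_nonneg _) (by positivity)
    have a3 : D * SQ - ((0 : ℝ) : ℂ) = D * (SQ - S) + D * S := by push_cast; ring
    rw [a3]
    linarith [norm_add_le (D * (SQ - S)) (D * S)]
  · obtain ⟨t, ht0, ht1, ht⟩ := (((h.mono h1).mul hS' (by positivity) (by positivity)).mono
      (show _ ≤ c₀ by nlinarith))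
    refine ⟨t, ht0, ht1, ?_⟩
    have a3 : D * SQ - (t : ℂ) = D * (SQ - S) + (D * S - t) := by ring
    rw [a3]
    linarith [norm_add_le (D * (SQ - S)) (D * S - t)]

theorem arithA (k K : ℕ) (c₀ : ℝ) (hc₀ : 0 < c₀) : ∃ A : ℕ, 1 ≤ A ∧ ∃ σ : ℝ, 0 < σ ∧ ∃ C : ℝ,
    0 ≤ C ∧ ∃ L₀ : ℕ, ∀ L : ℕ, L₀ ≤ L → ∃ W : ℕ, 1 ≤ W ∧ W ≤ 2 ^ (L ^ A) ∧
      ∃ (B : ℤ → ℝ) (g : ℕ → ℤ → ℝ), ∀ f : ℤ[X], f.natDegree ≤ k →
        (∀ q : ℕ, 1 ≤ q → q ≤ (2 ^ L) ^ K * W ^ k → (q : ℤ) ∣ f.coeff 0) →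
        Dat f K (2 ^ L) W c₀ (C * ((2 ^ L : ℕ) : ℝ) ^ (-σ)) 0 B g := by
  obtain ⟨x₀, hx0, hx1, hsm⟩ := small_sec k
  obtain ⟨s, hs, hlg⟩ := large_sec k
  obtain ⟨Cd, hCd, hdiv⟩ := divisor_bound (s / (4 * (K + 1))) (by positivity)
  obtain ⟨c, hc0, hc1, hc⟩ : ∃ c : ℝ, 0 < c ∧ c ≤ 1 ∧ c ≤ c₀ :=
    ⟨min c₀ 1, by positivity, min_le_right _ _, min_le_left _ _⟩
  obtain ⟨A1, hA1⟩ := exists_nat_ge (2 / s)
  obtain ⟨C1, hC1⟩ : ∃ C1 : ℝ, C1 = 4 / (1 - x₀) := ⟨_, rfl⟩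
  have hx2 : 0 < 1 - x₀ := by linarith
  have hC10 : 0 < C1 := by rw [hC1]; positivity
  obtain ⟨L₀, hL₀⟩ := exists_nat_ge (2 + 6 * C1 / c + 24 * K / c)
  refine ⟨3 * A1 + 2, by omega, min (s / 2) 1, by positivity, Cd ^ 2 + 4, by positivity, L₀,
    fun L hL => ?_⟩
  have hLr : 2 + 6 * C1 / c + 24 * K / c ≤ L := hL₀.trans (by exact_mod_cast hL)
  have b1 : 0 ≤ 6 * C1 / c := by positivity
  have b2 : 0 ≤ 24 * (K : ℝ) / c := by positivity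
  have hL2 : (2 : ℝ) ≤ L := by linarith
  have hL1 : 1 ≤ L := by
    have : (1 : ℝ) ≤ L := by linarith
    exact_mod_cast this
  have hLa : 6 * C1 ≤ L * c := by
    rw [← div_le_iff₀ hc0]; linarith
  have hLb : 24 * (K : ℝ) ≤ L * c := by
    rw [← div_le_iff₀ hc0]; linarith
  obtain ⟨y, hy⟩ : ∃ y : ℕ, y = L ^ A1 := ⟨_, rfl⟩
  have hy1 : 1 ≤ y := hy ▸ Nat.one_le_pow _ _ hL1
  have hy1' : (1 : ℝ) ≤ y := by exact_mod_cast hy1
  have hys : (L : ℝ) ^ 2 ≤ (y : ℝ) ^ s := by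
    rw [hy, Nat.cast_pow, ← Real.rpow_natCast, ← Real.rpow_natCast, ← Real.rpow_mul (by positivity)]
    refine Real.rpow_le_rpow_of_exponent_le (by linarith) ?_
    rw [div_le_iff₀ hs] at hA1
    exact_mod_cast hA1
  obtain ⟨hW1, hW2, hW3⟩ := arA_W y (L ^ 2 * y)
  have htau := arA_tau L y hL1 hy1
  obtain ⟨v, hv⟩ : ∃ v : ℝ, v = 1 / ((L : ℝ) * y) := ⟨_, rfl⟩
  rw [← hv] at htau
  have hv0 : 0 < v := by rw [hv]; positivity
  have hvy : y * v * L = 1 := by rw [hv]; field_simp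
  have hCv : y * (v * C1) ≤ c / 6 := by
    have : y * (v * C1) * L ≤ c / 6 * L := by nlinarith
    exact le_of_mul_le_mul_right this (by linarith)
  have hCv1 : v * C1 ≤ c / 6 := le_trans (le_mul_of_one_le_left (by positivity) hy1') hCv
  have hvx : v ≤ (1 - x₀) / 2 := by
    rw [hC1, ← mul_div_assoc, div_le_iff₀ hx2] at hCv1
    nlinarith
  have hζ : (1 - (1 - v)) * (2 * x₀ / (1 - v - x₀)) ≤ v * C1 := by
    rw [sub_sub_cancel, hC1]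
    refine mul_le_mul_of_nonneg_left ?_ hv0.le
    rw [div_le_div_iff₀ (by linarith) hx2]
    nlinarith
  obtain ⟨P, hP⟩ : ∃ P, P = (Icc 1 y).filter Nat.Prime := ⟨_, rfl⟩
  rw [← hP] at hW1 hW2 hW3
  have hPp : ∀ p ∈ P, p.Prime := fun p hp => (mem_filter.mp (hP ▸ hp)).2
  have hPc : (P.card : ℝ) ≤ y := by
    have : P.card ≤ y := by simpa [← hP] using card_filter_le (Icc 1 y) Nat.Prime
    exact_mod_cast this
  have hcv := cvex_prod (1 - v) (by linarith) (by linarith) (L ^ 2 * y) P hPp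
  have hQ1 : 1 ≤ 2 ^ L := Nat.one_le_two_pow
  refine ⟨_, hW1, hW2.trans (le_of_eq ?_), fun m => ∏ p ∈ P, tow (1 - v) (L ^ 2 * y) p m,
    gl (gamL s y), fun f hf hq => ?_⟩
  · rw [hy]; congr 1; ring
  have hloc := fun p hp => gamL_loc0 f s hs y p hp
  refine ⟨hcv, gl_per0 hloc, gl_bd0 hloc, ?_, fun q₀ n hq0 hq1 hn a => ?_⟩
  · have h := Lam_split f s hs y _ _ hcv.per hW1 hW3 (2 ^ L) 1 1 le_rfl le_rfl (by simp) (by simp)
      0 0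
    rw [small_mass f _ _ P hPp, one_mul, sum_eq_single 1] at h
    · simpa [Del, av, gl_one, e_zero] using h
    · intro d hd hd1
      exact gl_van0 hloc (mem_Icc.mp hd).1 le_rfl (by simpa using hd1) 0
    · intro h1
      exact absurd (mem_Icc.mpr ⟨le_rfl, hQ1⟩) h1
  have hn1 : 1 ≤ n := Nat.pos_of_dvd_of_pos hn hW1
  have hqq : 1 ≤ q₀ * n ^ f.natDegree := Nat.mul_pos hq0 (pow_pos hn1 _)
  have hdv := hq _ hqq (Nat.mul_le_mul hq1 ((Nat.pow_le_pow_left (Nat.le_of_dvd hW1 hn) _).trans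
    (Nat.pow_le_pow_right hW1 hf)))
  obtain ⟨q₁, q₂, hqe, hs1, hs2⟩ := exists_smooth_rough _ y hqq
  have h₁ : 1 ≤ q₁ := Nat.pos_of_ne_zero fun h => by rw [h] at hqe; omega
  have h₂ : 1 ≤ q₂ := Nat.pos_of_ne_zero fun h => by rw [h] at hqe; omega
  have hcop := arA_cop hn1 h₂ (fun p hp => hW3 p
    (Nat.primeFactors_mono hn (by omega) hp)) hs2
  have hq2 : q₂ ≤ (2 ^ L) ^ K := (Nat.le_of_dvd hq0 ((hcop.pow_left f.natDegree).symm.dvd_of_dvd_mul_right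
    (hqe ▸ Dvd.intro_left _ rfl))).trans hq1
  obtain ⟨u, w, huw⟩ := Nat.isCoprime_iff_coprime.2 (arA_cop h₁ h₂ hs1 hs2)
  have ha : a = (a * w) * q₂ + (a * u) * q₁ := by linear_combination (-a) * huw
  rw [hqe] at hdv
  push_cast at hdv
  rw [hqe, ha, Lam_split f s hs y _ _ hcv.per hW1 hW3 (2 ^ L) q₁ q₂ h₁ h₂ hs1 hs2]
  obtain ⟨hD, hD'⟩ := hsm f hf (1 - v) (v * C1) (by linarith) (by linarith) hζ (L ^ 2 * y) P hPp
    q₁ h₁ (fun p hp => hP ▸ mem_filter.mpr ⟨mem_Icc.mpr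
      ⟨(Nat.prime_of_mem_primeFactors hp).pos, hs1 p hp⟩, Nat.prime_of_mem_primeFactors hp⟩)
    (dvd_of_mul_right_dvd hdv) (a * w)
  have hS := hlg f hf y (by nlinarith) q₂ h₂ hs2 (dvd_of_mul_left_dvd hdv) (a * u)
  have hT := (gl_tail0 hs hloc q₂ h₂ (2 ^ L) hQ1 (a * u)).trans
    (arA_tail hs hCd K _ q₂ hQ1 hq2 (Nat.cast_nonneg _) (hdiv q₂))
  have hom : (q₂.primeFactors.card : ℝ) ≤ L * K := by
    have h1 := (two_pow_omega_le q₂ h₂).trans ((Nat.card_divisors_le_self q₂).trans hq2)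
    rw [← pow_mul] at h1
    exact_mod_cast (Nat.pow_le_pow_iff_right (by norm_num)).mp h1
  have hz1 : P.card * (v * C1) ≤ c / 6 := le_trans (by gcongr) hCv
  have hz2 : q₂.primeFactors.card * (4 * (y : ℝ) ^ (-s)) ≤ c / 6 := by
    have a1 : (y : ℝ) ^ (-s) ≤ ((L : ℝ) ^ 2)⁻¹ := by
      rw [Real.rpow_neg (by positivity)]
      gcongr
    calc _ ≤ (L * K : ℝ) * (4 * ((L : ℝ) ^ 2)⁻¹) := by gcongr
      _ = 4 * K / L := by field_simp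
      _ ≤ c / 6 := by rw [div_le_iff₀ (by linarith)]; linarith
  refine arA_fin hc0.le hc1 hc (by positivity) ?_ ?_ hD ?_ hD' hS hT
  · linarith [one_add_pow_sub_le (v * C1) (by positivity) P.card (by linarith)]
  · linarith [one_add_pow_sub_le (4 * (y : ℝ) ^ (-s)) (by positivity) q₂.primeFactors.card
      (by linarith)]
  · refine mul_le_mul (by linarith) (htau.trans ?_) (pow_nonneg (by linarith) _) (by norm_num)
    rw [one_div, ← Real.rpow_neg_one]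
    push_cast
    exact Real.rpow_le_rpow_of_exponent_le (one_le_pow₀ (by norm_num))
      (neg_le_neg (min_le_right _ _))

end Vale.Agent.P042V
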