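import Vale.Agent.P042V.ArithA

/-! The arithmetic data for an intersective polynomial. -/

namespace Vale.Agent.P042V

open Polynomial Finset Vale.Agent.P042U

theorem Dat.shift {h : ℤ[X]} {K Q W : ℕ} {c₀ δ : ℝ} {B : ℤ → ℝ} {g : ℕ → ℤ → ℝ} (ρ : ℤ)
    (hd : Dat (h.comp (X + C ρ)) K Q W c₀ δ 0 B g) :
    Dat h K Q W c₀ δ ρ (fun m => B (m - ρ)) (fun d m => g d (m - ρ)) := by
  have hdeg : (h.comp (X + C ρ)).natDegree = h.natDegree := by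
    rw [natDegree_comp, natDegree_X_add_C, mul_one]
  have hL : ∀ q a, Lam h (fun m => B (m - ρ)) (fun d m => g d (m - ρ)) W Q q a =
      Lam (h.comp (X + C ρ)) B g W Q q a := fun q a => by
    refine sum_congr rfl fun d _ => ?_
    have hp : Function.Periodic (fun m => B (m - ρ) * g d (m - ρ)) ((W * d : ℕ) : ℤ) := by
      intro m
      have h1 := hd.cvx.per.int_mul d (m - ρ)
      have h2 := (hd.per d).int_mul W (m - ρ)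
      push_cast at h1 h2 ⊢
      rw [show m + W * d - ρ = m - ρ + W * d by ring, h2, mul_comm (W : ℤ) d, h1]
    rw [← pf_Del_shift h _ (W * d) q hp a ρ]
    simp only [add_sub_cancel_right]
  obtain ⟨ι, s, n, c, h1, h2, h3⟩ := hd.cvx
  refine ⟨⟨ι, s, n, c, h1, h2, fun m => ?_⟩, fun d => (hd.per d).sub_const ρ,
    fun d hd' m => hd.bd d hd' _, by rw [hL]; exact hd.mass, fun q₀ n' a1 a2 a3 a => ?_⟩
  · simp only [h3, ind, sub_zero]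
  · rw [hL, ← hdeg]
    exact hd.sect q₀ n' a1 a2 a3 a

theorem arithS (h : ℤ[X]) (hint : ∀ q : ℕ, 1 ≤ q → ∃ t : ℤ, (q : ℤ) ∣ h.eval t) (K : ℕ)
    (c₀ : ℝ) (hc₀ : 0 < c₀) : ∃ A : ℕ, 1 ≤ A ∧ ∃ σ : ℝ, 0 < σ ∧ ∃ C : ℝ,
    0 ≤ C ∧ ∃ L₀ : ℕ, ∀ L : ℕ, L₀ ≤ L → ∃ W : ℕ, 1 ≤ W ∧ W ≤ 2 ^ (L ^ A) ∧
      ∃ (ρ : ℤ) (B : ℤ → ℝ) (g : ℕ → ℤ → ℝ),
        Dat h K (2 ^ L) W c₀ (C * ((2 ^ L : ℕ) : ℝ) ^ (-σ)) ρ B g := by
  obtain ⟨A, hA, σ, hσ, C₀, hC, L₀, H⟩ := arithA h.natDegree K c₀ hc₀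
  refine ⟨A, hA, σ, hσ, C₀, hC, L₀, fun L hL => ?_⟩
  obtain ⟨W, hW, hW', B, g, H⟩ := H L hL
  obtain ⟨ρ, hρ⟩ := hint ((2 ^ L) ^ K * W ^ h.natDegree).factorial (Nat.factorial_pos _)
  refine ⟨W, hW, hW', ρ, _, _, Dat.shift ρ (H _ ?_ fun q hq hq' => ?_)⟩
  · rw [natDegree_comp, natDegree_X_add_C, mul_one]
  · rw [coeff_zero_eq_eval_zero, eval_comp, eval_add, eval_X, eval_C, zero_add]
    exact (Int.natCast_dvd_natCast.2 (Nat.dvd_factorial hq hq')).trans hρ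

end Vale.Agent.P042V
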