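import Vale.Agent.P042U.OddLoc
import Vale.Agent.P042U.MultB
import Vale.Agent.P042U.Major
import Vale.Agent.P042U.PolyF

/-! Definitions for the bound valid for every intersective polynomial. -/

namespace Vale.Agent.P042V

open Polynomial Finset Vale.Agent.P042U

/-- normalised indicator of the class of `ρ` modulo `n` -/
noncomputable def ind (n : ℕ) (ρ m : ℤ) : ℝ := if (n : ℤ) ∣ m - ρ then (n : ℝ) else 0

/-- `B` is a convex combination of normalised indicators of classes of `ρ` modulo divisors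
of `W` -/
def Cvex (W : ℕ) (ρ : ℤ) (B : ℤ → ℝ) : Prop :=
  ∃ (ι : Type) (s : Finset ι) (n : ι → ℕ) (c : ι → ℝ), (∀ i ∈ s, n i ∣ W ∧ 0 ≤ c i) ∧
    ∑ i ∈ s, c i = 1 ∧ ∀ m, B m = ∑ i ∈ s, c i * ind (n i) ρ m

/-- the multiplier of the weight `B * wt g Q` at `a / q` -/
noncomputable def Lam (h : ℤ[X]) (B : ℤ → ℝ) (g : ℕ → ℤ → ℝ) (W Q q : ℕ) (a : ℤ) : ℂ :=
  ∑ d ∈ Icc 1 Q, Del h (fun m => B m * g d m) (W * d) q a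

/-- arithmetic data: the multipliers lie close to a thin sector -/
structure Dat (h : ℤ[X]) (K Q W : ℕ) (c₀ δ : ℝ) (ρ : ℤ) (B : ℤ → ℝ) (g : ℕ → ℤ → ℝ) : Prop where
  cvx : Cvex W ρ B
  per : ∀ d : ℕ, Function.Periodic (g d) (d : ℤ)
  bd : ∀ d : ℕ, 1 ≤ d → ∀ m, |g d m| ≤ (d : ℝ) ^ 2
  mass : Lam h B g W Q 1 0 = 1
  sect : ∀ q₀ n : ℕ, 1 ≤ q₀ → q₀ ≤ Q ^ K → n ∣ W → ∀ a : ℤ, ∃ t : ℝ, 0 ≤ t ∧ t ≤ 1 ∧
    ‖Lam h B g W Q (q₀ * n ^ h.natDegree) a - (t : ℂ)‖ ≤ c₀ * t + δ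

/-- `z` lies in the sector of relative width `ζ` -/
def Sec (ζ : ℝ) (z : ℂ) : Prop := ∃ t : ℝ, 0 ≤ t ∧ t ≤ 1 ∧ ‖z - (t : ℂ)‖ ≤ ζ * t

/-- the local conditions without positivity -/
structure Loc0 (h : ℤ[X]) (σ : ℝ) (p : ℕ) (γ : ℕ → ℤ → ℝ) : Prop where
  zero : ∀ m, γ 0 m = 1
  per : ∀ j : ℕ, Function.Periodic (γ j) ((p ^ j : ℕ) : ℤ)
  bd : ∀ j m, |γ j m| ≤ ((p ^ j : ℕ) : ℝ) ^ 2
  van : ∀ s j : ℕ, ∀ a : ℤ, s < j → Del h (γ j) (p ^ j) (p ^ s) a = 0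
  sm : ∀ s j : ℕ, ∀ a : ℤ, 1 ≤ j →
    ‖Del h (γ j) (p ^ j) (p ^ s) a‖ ≤ 2 * ((p ^ j : ℕ) : ℝ) ^ (-σ)

/-- the complete sum along the multiples of `p ^ j` -/
noncomputable def thj (f : ℤ[X]) (p s : ℕ) (a : ℤ) (j : ℕ) : ℂ :=
  th (C a * f.comp (C ((p ^ j : ℕ) : ℤ) * X)) (p ^ s)

/-- the tower weight of height `T` at `p` -/
noncomputable def tow (τ : ℝ) (T p : ℕ) (m : ℤ) : ℝ :=
  (1 - τ) * ∑ j ∈ range T, τ ^ j * ind (p ^ j) 0 m + τ ^ T * ind (p ^ T) 0 m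

/-- the weights at the primes above `y` -/
noncomputable def gamL (σ : ℝ) (y p j : ℕ) (m : ℤ) : ℝ :=
  if y < p then gam σ p j m else if j = 0 then 1 else 0

/-- the quasi-polynomial bound for `h` -/
def QP (h : ℤ[X]) : Prop :=
  ∃ κ : ℝ, 0 < κ ∧ ∃ c : ℝ, 0 < c ∧ ∃ C : ℝ, ∀ N : ℕ,
    (P042.r h N : ℝ) ≤ C * N * Real.exp (-(c * Real.log N ^ κ))

end Vale.Agent.P042V
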