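import Vale.Agent.P042V.Defs
import Vale.Agent.P042U.Dich

/-! Major or minor arc. -/

namespace Vale.Agent.P042V

open Polynomial Finset Vale.Agent.P042U

theorem dichS_inner (g : ℕ → ℤ → ℝ) (hper : ∀ d : ℕ, Function.Periodic (g d) (d : ℤ))
    (hbd : ∀ d : ℕ, 1 ≤ d → ∀ m, |g d m| ≤ (d : ℝ) ^ 2) (Q t n ρ₀ : ℕ) (F : ℕ → ℂ) (A : ℝ)
    (hA : 0 ≤ A)
    (hall : ∀ d ∈ Icc 1 Q, ∀ r < d, ‖∑ j ∈ range ((t + d - 1 - r) / d), F (d * j + r)‖ ≤ A) :
    ‖∑ j ∈ range t, (wt g Q ((n * j + ρ₀ : ℕ) : ℤ) : ℂ) * F j‖ ≤ (Q : ℝ) ^ 4 * A := by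
  have e1 : ∑ j ∈ range t, (wt g Q ((n * j + ρ₀ : ℕ) : ℤ) : ℂ) * F j =
      ∑ d ∈ Icc 1 Q, ∑ j ∈ range t, (g d ((n * j + ρ₀ : ℕ) : ℤ) : ℂ) * F j := by
    rw [Finset.sum_comm]
    refine Finset.sum_congr rfl fun m _ => ?_
    rw [wt, Complex.ofReal_sum, Finset.sum_mul]
  rw [e1]
  refine (norm_sum_le _ _).trans ((Finset.sum_le_card_nsmul _ _ ((Q : ℝ) ^ 3 * A)
    fun d hd => ?_).trans (le_of_eq ?_))
  · obtain ⟨hd1, hd2⟩ := mem_Icc.1 hd
    have hdQ : (d : ℝ) ≤ Q := by exact_mod_cast hd2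
    rw [dich_split _ t d hd1]
    refine (norm_sum_le _ _).trans ((Finset.sum_le_card_nsmul _ _ ((Q : ℝ) ^ 2 * A)
      fun r hr => ?_).trans ?_)
    · have e2 : ∑ j ∈ range ((t + d - 1 - r) / d),
          (g d ((n * (d * j + r) + ρ₀ : ℕ) : ℤ) : ℂ) * F (d * j + r) =
          (g d (n * r + ρ₀) : ℂ) * ∑ j ∈ range ((t + d - 1 - r) / d), F (d * j + r) := by
        rw [Finset.mul_sum]
        refine Finset.sum_congr rfl fun j _ => ?_
        have := (hper d).int_mul (n * j) (n * r + ρ₀)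
        rw [← this]
        congr 3
        push_cast
        ring
      rw [e2, norm_mul, Complex.norm_real, Real.norm_eq_abs]
      exact mul_le_mul ((hbd d hd1 _).trans (by gcongr)) (hall d hd r (mem_range.1 hr))
        (norm_nonneg _) (by positivity)
    · rw [card_range, nsmul_eq_mul]
      calc (d : ℝ) * ((Q : ℝ) ^ 2 * A) ≤ Q * ((Q : ℝ) ^ 2 * A) := by gcongr
        _ = _ := by ring
  · rw [Nat.card_Icc, nsmul_eq_mul]
    simp only [Nat.add_sub_cancel]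
    ring

theorem dichS_ind (n : ℕ) (hn : 1 ≤ n) (ρ : ℤ) (t : ℕ) (G : ℕ → ℂ) :
    ∑ m ∈ range t, (ind n ρ m : ℂ) * G m =
      n * ∑ j ∈ range ((t + n - 1 - (ρ % n).toNat) / n), G (n * j + (ρ % n).toNat) := by
  have hn0 : (0 : ℤ) < n := by exact_mod_cast hn
  have h1 := Int.emod_nonneg ρ hn0.ne'
  have h2 := Int.emod_lt_of_pos ρ hn0
  have h3 : (((ρ % n).toNat : ℕ) : ℤ) = ρ % n := Int.toNat_of_nonneg h1
  have key : ∀ r j : ℕ, r < n →
      ((n : ℤ) ∣ ((n * j + r : ℕ) : ℤ) - ρ ↔ r = (ρ % n).toNat) := by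
    intro r j hr
    have e : ((n * j + r : ℕ) : ℤ) % n = r := by
      rw [← Int.natCast_mod, Nat.mul_add_mod, Nat.mod_eq_of_lt hr]
    rw [← Int.modEq_iff_dvd, Int.ModEq, e]
    omega
  rw [dich_split _ t n hn, Finset.sum_eq_single_of_mem (ρ % n).toNat (mem_range.2 (by omega)),
    Finset.mul_sum]
  · refine Finset.sum_congr rfl fun j _ => ?_
    rw [ind, if_pos ((key _ j (by omega)).2 rfl)]
    simp
  · intro r hr hne
    refine Finset.sum_eq_zero fun j _ => ?_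
    rw [ind, if_neg fun hd => hne ((key r j (mem_range.1 hr)).1 hd)]
    simp

theorem dichS (h : ℤ[X]) (hk : 1 ≤ h.natDegree) (hl : 0 < h.leadingCoeff) :
    ∃ K : ℕ, 1 ≤ K ∧ ∀ (W : ℕ) (ρ : ℤ) (B : ℤ → ℝ) (g : ℕ → ℤ → ℝ), 1 ≤ W → Cvex W ρ B →
      (∀ d : ℕ, Function.Periodic (g d) (d : ℤ)) →
      (∀ d : ℕ, 1 ≤ d → ∀ m, |g d m| ≤ (d : ℝ) ^ 2) →
      ∀ Q : ℕ, 2 ≤ Q → ∀ M : ℕ, W ≤ M → ∀ α : ℝ,
      (∀ t, t ≤ M →
        ‖∑ m ∈ range t, ((B m * wt g Q m : ℝ) : ℂ) * e (α * (h.eval (m : ℤ) : ℤ))‖ ≤ (M : ℝ) / Q) ∨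
      ∃ q₀ n : ℕ, 1 ≤ q₀ ∧ q₀ ≤ Q ^ K ∧ n ∣ W ∧ ∃ a : ℤ,
        |α - a / ((q₀ * n ^ h.natDegree : ℕ) : ℝ)| * (M : ℝ) ^ h.natDegree ≤ (Q : ℝ) ^ K := by
  obtain ⟨K₀, hK₀⟩ := weyl_inv h.natDegree hk
  set k := h.natDegree with hkd
  obtain ⟨c, hc⟩ : ∃ c : ℕ, h.leadingCoeff = c :=
    ⟨h.leadingCoeff.toNat, (Int.toNat_of_nonneg hl.le).symm⟩
  have hc1 : 1 ≤ c := by omega
  refine ⟨6 * K₀ + c + 5 * k, by omega, fun W ρ B g hW hB hper hbd Q hQ M hM α => ?_⟩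
  have hQr : (2 : ℝ) ≤ Q := by exact_mod_cast hQ
  have hQp : (0 : ℝ) < Q := by linarith
  by_cases hall : ∀ t ≤ M, ∀ n : ℕ, n ∣ W → ∀ d ∈ Icc 1 Q, ∀ r < d,
      ‖∑ j ∈ range (((t + n - 1 - (ρ % n).toNat) / n + d - 1 - r) / d),
        e (α * (h.eval ((n * (d * j + r) + (ρ % n).toNat : ℕ) : ℤ) : ℤ))‖ ≤ (M : ℝ) / (n * Q ^ 5)
  · left
    intro t ht
    obtain ⟨ι, s, n, w, hw, hw1, hBe⟩ := hB
    have e1 : ∑ m ∈ range t, ((B m * wt g Q m : ℝ) : ℂ) * e (α * (h.eval (m : ℤ) : ℤ)) =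
        ∑ i ∈ s, (w i : ℂ) * ∑ m ∈ range t, (ind (n i) ρ m : ℂ) *
          ((wt g Q m : ℂ) * e (α * (h.eval (m : ℤ) : ℤ))) := by
      simp only [Finset.mul_sum]
      rw [Finset.sum_comm]
      refine Finset.sum_congr rfl fun m _ => ?_
      rw [hBe]
      push_cast
      rw [Finset.sum_mul, Finset.sum_mul]
      exact Finset.sum_congr rfl fun i _ => by ring
    rw [e1]
    refine (norm_sum_le _ _).trans ((Finset.sum_le_sum (g := fun i => w i * ((M : ℝ) / Q))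
      fun i hi => ?_).trans (le_of_eq ?_))
    · obtain ⟨hnW, hw0⟩ := hw i hi
      have hn1 : 1 ≤ n i := Nat.pos_of_dvd_of_pos hnW hW
      have hnr : (0 : ℝ) < n i := by exact_mod_cast hn1
      rw [norm_mul, Complex.norm_real, Real.norm_of_nonneg hw0]
      refine mul_le_mul_of_nonneg_left ?_ hw0
      rw [dichS_ind (n i) hn1 ρ t fun m => (wt g Q m : ℂ) * e (α * (h.eval (m : ℤ) : ℤ)), norm_mul,
        Complex.norm_natCast]
      have := dichS_inner g hper hbd Q _ (n i) (ρ % n i).toNat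
        (fun j => e (α * (h.eval ((n i * j + (ρ % n i).toNat : ℕ) : ℤ) : ℤ))) _ (by positivity)
        (hall t ht (n i) hnW)
      refine (mul_le_mul_of_nonneg_left this hnr.le).trans (le_of_eq ?_)
      field_simp
    · rw [← Finset.sum_mul, hw1, one_mul]
  · right
    push Not at hall
    obtain ⟨t, ht, n, hnW, d, hd, r, hr, hS⟩ := hall
    obtain ⟨hd1, hd2⟩ := mem_Icc.1 hd
    have hn1 : 1 ≤ n := Nat.pos_of_dvd_of_pos hnW hW
    have hnM : n ≤ M := (Nat.le_of_dvd hW hnW).trans hM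
    have hnr : (0 : ℝ) < n := by exact_mod_cast hn1
    obtain ⟨ρ₀, hρ₀⟩ : ∃ ρ₀, ρ₀ = (ρ % n).toNat := ⟨_, rfl⟩
    rw [← hρ₀] at hS
    obtain ⟨t', ht'⟩ : ∃ t', t' = (t + n - 1 - ρ₀) / n := ⟨_, rfl⟩
    rw [← ht'] at hS
    have ht'M : n * t' ≤ 2 * M := by
      have := Nat.mul_div_le (t + n - 1 - ρ₀) n
      rw [← ht'] at this
      omega
    set H := (t' + d - 1 - r) / d with hH
    have hHt : H ≤ t' := by
      rw [hH, ← Nat.lt_add_one_iff, Nat.div_lt_iff_lt_mul hd1, add_mul]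
      have : t' ≤ t' * d := Nat.le_mul_of_pos_right _ hd1
      omega
    have hHM : (n : ℝ) * H ≤ 2 * M := by
      exact_mod_cast (Nat.mul_le_mul_left n hHt).trans ht'M
    have hd0 : ((n * d : ℕ) : ℤ) ≠ 0 := by
      have : 0 < n * d := Nat.mul_pos hn1 hd1
      omega
    set P : ℤ[X] := h.comp (C ((n * d : ℕ) : ℤ) * X + C ((n * r + ρ₀ : ℕ) : ℤ)) with hP
    have hPd : P.natDegree = k := by
      rw [hP, natDegree_comp, natDegree_linear hd0, mul_one]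
    have hPc : P.coeff k = c * ((n * d : ℕ) : ℤ) ^ k := by
      rw [← hPd, coeff_natDegree, hPd, hP, leadingCoeff_comp (by rw [natDegree_linear hd0]; simp),
        leadingCoeff_linear hd0, hc]
    set f : ℝ[X] := C α * P.map (Int.castRingHom ℝ) with hf
    have hfd : f.natDegree ≤ k :=
      (natDegree_C_mul_le _ _).trans (natDegree_map_le.trans hPd.le)
    have hfc : f.coeff k = α * (c * ((n : ℝ) * d) ^ k) := by
      rw [hf, coeff_C_mul, coeff_map, hPc]; simp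
    have hfe : ∀ j : ℕ, f.eval (j : ℝ) =
        α * (h.eval ((n * (d * j + r) + ρ₀ : ℕ) : ℤ) : ℤ) := by
      intro j
      rw [hf, eval_mul, eval_C, ← Int.cast_natCast (R := ℝ) j, eval_intCast_map, hP, eval_comp]
      have e0 : eval ((Int.castRingHom ℤ) (j : ℤ))
          (C ((n * d : ℕ) : ℤ) * X + C ((n * r + ρ₀ : ℕ) : ℤ)) =
          ((n * (d * j + r) + ρ₀ : ℕ) : ℤ) := by
        rw [eval_add, eval_mul, eval_C, eval_C, eval_X]
        simp only [eq_intCast, Int.cast_id]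
        push_cast
        ring
      exact congrArg (fun z : ℤ => α * ((h.eval z : ℤ) : ℝ)) e0
    rw [div_lt_iff₀ (by positivity)] at hS
    obtain ⟨N, hN⟩ : ∃ N, N = ‖∑ j ∈ range H,
      e (α * (h.eval ((n * (d * j + r) + ρ₀ : ℕ) : ℤ) : ℤ))‖ := ⟨_, rfl⟩
    have hSH : N ≤ H := by
      rw [hN]
      refine (norm_sum_le _ _).trans ?_
      simp [norm_e]
    have hN0 : 0 ≤ N := by rw [hN]; exact norm_nonneg _
    rw [← hN] at hS
    have hY : (2 : ℝ) ≤ (Q : ℝ) ^ 6 :=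
      hQr.trans (le_self_pow₀ (by linarith) (by norm_num))
    obtain ⟨q, hq1, hq2, a, ha⟩ := hK₀ f hfd H ((Q : ℝ) ^ 6) hY (by
      simp only [hfe]
      rw [← hN]
      refine le_of_mul_le_mul_left ?_ hnr
      calc (n : ℝ) * H ≤ 2 * (N * (n * Q ^ 5)) := by linarith
        _ ≤ Q * (N * (n * Q ^ 5)) := by gcongr
        _ = _ := by ring)
    have hq2' : q ≤ Q ^ (6 * K₀) := by
      rw [← pow_mul] at hq2
      exact_mod_cast hq2
    have hpos : 1 ≤ q * c * d ^ k := Nat.succ_le_of_lt (by positivity)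
    refine ⟨q * c * d ^ k, n, hpos, ?_, hnW, a, ?_⟩
    · rw [pow_add, pow_add]
      have a1 : c ≤ Q ^ c := (Nat.lt_pow_self (by omega)).le
      have a2 : d ^ k ≤ Q ^ (5 * k) :=
        (Nat.pow_le_pow_left hd2 k).trans (Nat.pow_le_pow_right (by omega) (by omega))
      gcongr
    · have hpr : (1 : ℝ) ≤ ((q * c * d ^ k : ℕ) : ℝ) := by exact_mod_cast hpos
      have hnk : (0 : ℝ) < (n : ℝ) ^ k := by positivity
      have hcast : ((q * c * d ^ k * n ^ k : ℕ) : ℝ) = ((q * c * d ^ k : ℕ) : ℝ) * (n : ℝ) ^ k := by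
        push_cast; ring
      have b1 : |α - a / ((q * c * d ^ k * n ^ k : ℕ) : ℝ)| * (n : ℝ) ^ k ≤
          |q * f.coeff k - a| := by
        have e3 : (α - a / ((q * c * d ^ k * n ^ k : ℕ) : ℝ)) * (n : ℝ) ^ k =
            (q * f.coeff k - a) / ((q * c * d ^ k : ℕ) : ℝ) := by
          rw [hfc, hcast, eq_div_iff (by linarith), mul_assoc, mul_comm ((n : ℝ) ^ k), sub_mul,
            div_mul_cancel₀ _ (by positivity)]
          push_cast
          ring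
        rw [← abs_of_pos hnk, ← abs_mul, e3, abs_div,
          abs_of_pos (by linarith : (0 : ℝ) < ((q * c * d ^ k : ℕ) : ℝ))]
        exact div_le_self (abs_nonneg _) hpr
      have b2 : (M : ℝ) ≤ n * (H * Q ^ 5) := by
        refine hS.le.trans ?_
        calc N * (n * (Q : ℝ) ^ 5) ≤ H * (n * (Q : ℝ) ^ 5) := by gcongr
          _ = _ := by ring
      calc _ ≤ |α - a / ((q * c * d ^ k * n ^ k : ℕ) : ℝ)| * (n * (H * (Q : ℝ) ^ 5)) ^ k := by
            gcongr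
        _ = |α - a / ((q * c * d ^ k * n ^ k : ℕ) : ℝ)| * (n : ℝ) ^ k *
              ((H : ℝ) ^ k * (Q : ℝ) ^ (5 * k)) := by
            rw [mul_pow, mul_pow, ← pow_mul]; ring
        _ ≤ |q * f.coeff k - a| * ((H : ℝ) ^ k * (Q : ℝ) ^ (5 * k)) := by gcongr
        _ = (|q * f.coeff k - a| * (H : ℝ) ^ k) * (Q : ℝ) ^ (5 * k) := by ring
        _ ≤ ((Q : ℝ) ^ 6) ^ K₀ * (Q : ℝ) ^ (5 * k) := by gcongr
        _ = (Q : ℝ) ^ (6 * K₀ + 5 * k) := by rw [← pow_mul, ← pow_add]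
        _ ≤ _ := pow_le_pow_right₀ (by linarith) (by omega)

end Vale.Agent.P042V
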