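import Vale.Agent.P042V.LowS
import Vale.Agent.P042V.ArithS

/-! The bound along the parameter `L`. -/

namespace Vale.Agent.P042V

open Polynomial Finset Vale.Agent.P042U

theorem globA_theta (lam : ℕ) (hlam : 1 ≤ lam) (σ : ℝ) (hσ : 0 < σ) :
    ∃ θ : ℝ, 0 < θ ∧ θ < 1 ∧ ∀ L : ℕ, ((2 ^ L : ℕ) : ℝ) ^ (-σ) ≤ θ ^ L ∧
      1 / √((2 ^ L : ℕ) : ℝ) ≤ θ ^ L ∧ (3 / 4 : ℝ) ^ (L / (2 * lam)) ≤ 4 / 3 * θ ^ L := by
  have hl : (0 : ℝ) < ((2 * lam : ℕ) : ℝ) := by positivity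
  set a := (2 : ℝ) ^ (-σ) with ha
  set b := (2 : ℝ) ^ (-(1 / 2 : ℝ)) with hb
  set c := (3 / 4 : ℝ) ^ (((2 * lam : ℕ) : ℝ)⁻¹) with hc
  have a0 : 0 < a := by positivity
  have b0 : 0 < b := by positivity
  have c0 : 0 < c := by positivity
  have a1 : a < 1 := Real.rpow_lt_one_of_one_lt_of_neg (by norm_num) (by linarith)
  have b1 : b < 1 := Real.rpow_lt_one_of_one_lt_of_neg (by norm_num) (by norm_num)
  have c1 : c < 1 := Real.rpow_lt_one (by norm_num) (by norm_num) (by positivity)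
  have key : ∀ (L : ℕ) (t : ℝ), ((2 ^ L : ℕ) : ℝ) ^ t = ((2 : ℝ) ^ t) ^ L := fun L t => by
    push_cast
    rw [← Real.rpow_natCast, ← Real.rpow_natCast, ← Real.rpow_mul (by norm_num),
      ← Real.rpow_mul (by norm_num), mul_comm]
  refine ⟨max a (max b c), lt_max_of_lt_left a0, max_lt a1 (max_lt b1 c1), fun L => ⟨?_, ?_, ?_⟩⟩
  · rw [key]
    exact pow_le_pow_left₀ a0.le (le_max_left _ _) L
  · rw [Real.sqrt_eq_rpow, one_div, ← Real.rpow_neg (by positivity), key]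
    exact pow_le_pow_left₀ b0.le ((le_max_left _ _).trans (le_max_right _ _)) L
  · have h1 : c ^ (2 * lam) = 3 / 4 := Real.rpow_inv_natCast_pow (by norm_num) (by omega)
    have h2 : L ≤ 2 * lam * (L / (2 * lam) + 1) := (Nat.lt_mul_div_succ L (by omega)).le
    have h3 : c ^ (2 * lam * (L / (2 * lam) + 1)) ≤ c ^ L := pow_le_pow_of_le_one c0.le c1.le h2
    have h4 : c ^ L ≤ (max a (max b c)) ^ L :=
      pow_le_pow_left₀ c0.le ((le_max_right _ _).trans (le_max_right _ _)) L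
    rw [pow_mul, h1, pow_succ] at h3
    linarith

theorem globA (h : ℤ[X]) (hk : 2 ≤ h.natDegree) (hc : ∀ l, 0 ≤ h.coeff l)
    (hint : ∀ q : ℕ, 1 ≤ q → ∃ t : ℤ, (q : ℤ) ∣ h.eval t) :
    ∃ A : ℕ, 1 ≤ A ∧ ∃ θ : ℝ, 0 < θ ∧ θ < 1 ∧ ∃ C : ℝ, 0 ≤ C ∧ ∃ L₀ : ℕ, ∀ L : ℕ, L₀ ≤ L →
      ∀ N : ℕ, 2 ^ (L ^ A) ≤ N → (P042.r h N : ℝ) ≤ C * N * θ ^ L := by
  obtain ⟨K, c₀, hc₀, lam, D, hlam, hD, C₁, hC₁, Q₀, hlow⟩ := lowS h hk hc
  obtain ⟨A, hA, σ, hσ, C₂, hC₂, L₀, har⟩ := arithS h hint K c₀ hc₀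
  obtain ⟨θ, t0, t1, hθ⟩ := globA_theta lam (by omega) σ hσ
  have h0 : h ≠ 0 := fun e => by simp [e] at hk
  set k := h.natDegree with hkd
  obtain ⟨S, hS⟩ : ∃ S : ℕ, (S : ℤ) = h.eval 1 := ⟨(h.eval 1).toNat, Int.toNat_of_nonneg (by
    have := (eval_bounds h hc h0 1 le_rfl).1
    simp only [Nat.cast_one, one_pow] at this
    omega)⟩
  refine ⟨A + 1, by omega, θ, t0, t1, 2 * C₁ * (C₂ + 1 + 4 / 3), by positivity,
    L₀ + Q₀ + (S + k * (1 + 2 * D)) + 1, fun L hL N hN => ?_⟩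
  obtain ⟨W, hW1, hW2, ρ, B, g, hdat⟩ := har L (by omega)
  set I := L / (2 * lam) with hI
  have i1 : lam ^ (2 * I) ≤ 2 ^ L := by
    calc lam ^ (2 * I) ≤ (2 ^ lam) ^ (2 * I) := Nat.pow_le_pow_left Nat.lt_two_pow_self.le _
      _ = 2 ^ (2 * lam * I) := by rw [← pow_mul]; congr 1; ring
      _ ≤ 2 ^ L := Nat.pow_le_pow_right (by norm_num) (Nat.mul_div_le L _)
  obtain ⟨cf, G, hG0, hG, hre⟩ := hlow (2 ^ L) W _ ρ B g
    (le_trans (by omega) Nat.lt_two_pow_self.le) hW1 (by positivity) hdat I i1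
  set M := lam ^ I * (2 ^ L * W) ^ D with hM
  have l1 : L ≤ L ^ A := Nat.le_self_pow (by omega) L
  have m1 : M ≤ 2 ^ ((1 + 2 * D) * L ^ A) := by
    have a1 : lam ^ I ≤ 2 ^ L ^ A :=
      (Nat.pow_le_pow_right (by omega) (by omega)).trans
        (i1.trans (Nat.pow_le_pow_right (by norm_num) l1))
    have a2 : 2 ^ L * W ≤ 2 ^ L ^ A * 2 ^ L ^ A :=
      Nat.mul_le_mul (Nat.pow_le_pow_right (by norm_num) l1) hW2
    refine (Nat.mul_le_mul a1 (Nat.pow_le_pow_left a2 D)).trans (le_of_eq ?_)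
    rw [← pow_add, ← pow_mul, ← pow_add]
    congr 1
    ring
  have m2 : S * M ^ k ≤ N := by
    refine le_trans ?_ hN
    refine (Nat.mul_le_mul Nat.lt_two_pow_self.le (Nat.pow_le_pow_left m1 k)).trans ?_
    rw [← pow_mul, ← pow_add]
    refine Nat.pow_le_pow_right (by norm_num) ?_
    have a1 : S ≤ S * L ^ A := Nat.le_mul_of_pos_right _ (by omega)
    have a2 : (S + k * (1 + 2 * D)) * L ^ A ≤ L * L ^ A := Nat.mul_le_mul_right _ (by omega)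
    rw [pow_succ']
    nlinarith
  have hv : ∀ m ∈ Ico 1 M, 1 ≤ h.eval (m : ℤ) ∧ h.eval (m : ℤ) ≤ N := by
    intro m hm
    obtain ⟨hm1, hmM⟩ := mem_Ico.1 hm
    obtain ⟨b1, b2, -, -⟩ := eval_bounds h hc h0 m hm1
    constructor
    · exact le_trans (one_le_pow₀ (by exact_mod_cast hm1)) b1
    · rw [← hS] at b2
      have h1 : S * m ^ k ≤ N := le_trans (Nat.mul_le_mul_left _ (Nat.pow_le_pow_left hmM.le _)) m2
      have h2 : ((S * m ^ k : ℕ) : ℤ) ≤ N := by exact_mod_cast h1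
      push_cast at h2
      exact b2.trans h2
  obtain ⟨A', hA', hcard, hAd⟩ := r_spec h N
  set η := C₂ * ((2 ^ L : ℕ) : ℝ) ^ (-σ) + 1 / √((2 ^ L : ℕ) : ℝ) + (3 / 4 : ℝ) ^ I with hη
  have hη0 : 0 ≤ η := by positivity
  have hE0 : 0 ≤ C₁ * η * G := by positivity
  have key := vdc A' N hA' (Ico 1 M) (fun m => h.eval (m : ℤ)) cf hv
    (fun a ha b hb m hm hab => by
      have h1 := hAd a ha b hb m (mem_Ico.1 hm).1 hab
      have h2 := (hv m hm).1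
      omega) _ hE0 hre
  rw [hcard] at key
  have hr0 : (0 : ℝ) ≤ P042.r h N := Nat.cast_nonneg _
  have h1 : (P042.r h N : ℝ) * G ≤ 2 * N * (C₁ * η) * G :=
    (mul_le_mul_of_nonneg_left (by linarith) hr0).trans (key.trans (le_of_eq (by ring)))
  have h2 : η ≤ (C₂ + 1 + 4 / 3) * θ ^ L := by
    obtain ⟨a1, a2, a3⟩ := hθ L
    have a4 := mul_le_mul_of_nonneg_left a1 hC₂
    rw [hη]
    linarith
  refine (le_of_mul_le_mul_right h1 hG0).trans ?_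
  have h3 := mul_le_mul_of_nonneg_left h2 (show (0 : ℝ) ≤ 2 * N * C₁ by positivity)
  linarith

end Vale.Agent.P042V
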