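import Vale.Agent.P042V.GlobA

/-! The quasi-polynomial bound. -/

namespace Vale.Agent.P042V

open Polynomial Finset Vale.Agent.P042U

theorem qp_of_param (r : ℕ → ℕ) (hr : ∀ N, r N ≤ N) (A : ℕ) (hA : 1 ≤ A) (θ : ℝ) (h0 : 0 < θ)
    (h1 : θ < 1) (C : ℝ) (hC : 0 ≤ C) (L₀ : ℕ)
    (hb : ∀ L : ℕ, L₀ ≤ L → ∀ N : ℕ, 2 ^ (L ^ A) ≤ N → (r N : ℝ) ≤ C * N * θ ^ L) :
    ∃ κ : ℝ, 0 < κ ∧ ∃ c : ℝ, 0 < c ∧ ∃ C' : ℝ, ∀ N : ℕ,
      (r N : ℝ) ≤ C' * N * Real.exp (-(c * Real.log N ^ κ)) := by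
  have hAR : (0 : ℝ) < A := by exact_mod_cast hA
  have hc : 0 < -Real.log θ := neg_pos.2 (Real.log_neg h0 h1)
  refine ⟨(A : ℝ)⁻¹, by positivity, -Real.log θ, hc, C / θ + 1 / θ ^ L₀, fun N => ?_⟩
  rcases Nat.eq_zero_or_pos N with rfl | hN
  · have := hr 0
    rw [Nat.le_zero.1 this]
    simp
  have hNR : (1 : ℝ) ≤ N := by exact_mod_cast hN
  have hex : ∃ L : ℕ, N < 2 ^ ((L + 1) ^ A) := by
    refine ⟨N, Nat.lt_two_pow_self.trans_le (Nat.pow_le_pow_right (by norm_num) ?_)⟩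
    exact (Nat.le_succ N).trans (Nat.le_self_pow (by omega) _)
  obtain ⟨L, hL1, hL2⟩ : ∃ L : ℕ, 2 ^ (L ^ A) ≤ N ∧ N < 2 ^ ((L + 1) ^ A) := by
    refine ⟨Nat.find hex, ?_, Nat.find_spec hex⟩
    rcases Nat.eq_zero_or_pos (Nat.find hex) with h0' | hpos
    · rw [h0', zero_pow (by omega), pow_zero]; exact hN
    · have h2 := Nat.find_min hex (Nat.sub_lt hpos one_pos)
      rw [show Nat.find hex - 1 + 1 = Nat.find hex by omega] at h2
      omega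
  have hlog : Real.log N ≤ ((L : ℝ) + 1) ^ A := by
    have h2 : (N : ℝ) ≤ 2 ^ ((L + 1) ^ A) := by exact_mod_cast hL2.le
    have h3 := Real.log_le_log (by linarith) h2
    rw [Real.log_pow] at h3
    push_cast at h3
    have h4 : Real.log 2 ≤ 1 := by linarith [Real.log_two_lt_d9]
    have h5 : (0 : ℝ) ≤ ((L : ℝ) + 1) ^ A := by positivity
    nlinarith
  have hpow : Real.log N ^ (A : ℝ)⁻¹ ≤ L + 1 := by
    refine (Real.rpow_le_rpow (Real.log_nonneg hNR) hlog (by positivity)).trans (le_of_eq ?_)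
    exact Real.pow_rpow_inv_natCast (by positivity) (by omega)
  have hexp : θ ^ (L + 1) ≤ Real.exp (-(-Real.log θ * Real.log N ^ (A : ℝ)⁻¹)) := by
    rw [← Real.exp_log (pow_pos h0 (L + 1)), Real.log_pow]
    apply Real.exp_le_exp.2
    push_cast
    nlinarith
  refine le_trans ?_ (mul_le_mul_of_nonneg_left hexp (by positivity))
  have e1 : 0 ≤ C / θ * N * θ ^ (L + 1) := by positivity
  have e2 : 0 ≤ 1 / θ ^ L₀ * N * θ ^ (L + 1) := by positivity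
  rw [add_mul, add_mul]
  by_cases hL : L₀ ≤ L
  · have := hb L hL N hL1
    have e : C / θ * N * θ ^ (L + 1) = C * N * θ ^ L := by field_simp; ring
    linarith
  · have h2 : (r N : ℝ) ≤ N := by exact_mod_cast hr N
    have h3 : θ ^ L₀ ≤ θ ^ (L + 1) := pow_le_pow_of_le_one h0.le h1.le (by omega)
    have h4 : (N : ℝ) ≤ 1 / θ ^ L₀ * N * θ ^ (L + 1) := by
      rw [mul_assoc, one_div, ← div_eq_inv_mul, le_div_iff₀ (by positivity)]
      gcongr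
    linarith

theorem qp_all (h : ℤ[X]) (hk : 2 ≤ h.natDegree) (hl : 0 < h.leadingCoeff)
    (hint : ∀ q : ℕ, 1 ≤ q → ∃ t : ℤ, (q : ℤ) ∣ h.eval t) : QP h := by
  obtain ⟨m, hm⟩ := exists_shift_nonneg h hl
  have heq : h.comp (C ((1 : ℕ) : ℤ) * X + C (m : ℤ)) = h.comp (X + C (m : ℤ)) := by simp
  have hk2 : 2 ≤ (h.comp (X + C (m : ℤ))).natDegree := by
    rw [natDegree_comp, natDegree_X_add_C, mul_one]; exact hk
  obtain ⟨A, hA, θ, h0, h1, K, hK, L₀, hb⟩ := globA _ hk2 (hm m le_rfl) fun q hq => by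
    obtain ⟨t, ht⟩ := hint q hq
    exact ⟨t - m, by simpa [eval_comp] using ht⟩
  obtain ⟨κ, hκ, c, hc, C', hC'⟩ := qp_of_param _ (r_le _) A hA θ h0 h1 K hK L₀ hb
  refine ⟨κ, hκ, c, hc, C', fun N => le_trans ?_ (hC' N)⟩
  have := r_comp_le h 1 m le_rfl N
  rw [heq] at this
  exact_mod_cast this

end Vale.Agent.P042V
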