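import Vale.Agent.P042V.Scale
import Vale.Agent.P042V.Sector
import Vale.Agent.P042V.DichS

/-! The trigonometric polynomial. -/

namespace Vale.Agent.P042V

open Polynomial Finset Vale.Agent.P042U

theorem lowS_sum (I : ℕ) (M : ℕ → ℕ) (hM : ∀ i, i ≤ I → M i ≤ M I) (s : ℕ → ℝ) (w : ℕ → ℕ → ℝ)
    (hw : ∀ i, w i 0 = 0) (E : ℕ → ℂ) :
    ∑ m ∈ Ico 1 (M I), ((∑ i ∈ range (I + 1), s i * if m < M i then w i m else 0 : ℝ) : ℂ) * E m =
      ∑ i ∈ range (I + 1), ((s i : ℝ) : ℂ) * ∑ m ∈ range (M i), (w i m : ℂ) * E m := by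
  simp only [Complex.ofReal_sum, Finset.sum_mul, Finset.mul_sum]
  rw [Finset.sum_comm]
  refine Finset.sum_congr rfl fun i hi => ?_
  have hi' := hM i (Nat.lt_succ_iff.mp (mem_range.mp hi))
  have e1 : ∑ m ∈ Ico 1 (M I), ((s i * if m < M i then w i m else 0 : ℝ) : ℂ) * E m =
      ∑ m ∈ range (M I), ((s i * if m < M i then w i m else 0 : ℝ) : ℂ) * E m := by
    refine Finset.sum_subset (fun m hm => mem_range.mpr (mem_Ico.mp hm).2) fun m hm hm' => ?_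
    have : m = 0 := by
      rw [mem_range] at hm
      rw [mem_Ico] at hm'
      omega
    subst this
    simp [hw i]
  rw [e1]
  symm
  rw [← Finset.sum_subset (s₁ := range (M i)) (range_subset_range.mpr hi') fun m _ hm' => by
    rw [if_neg fun hlt => hm' (mem_range.mpr hlt)]; simp]
  refine Finset.sum_congr rfl fun m hm => ?_
  rw [if_pos (mem_range.mp hm)]
  push_cast
  ring

theorem lowS_div {x : ℝ} (hx : 0 < x) (c : ℝ) : 1 / √x * (c * x) = c * √x := by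
  have h1 := Real.sqrt_pos.mpr hx
  have h2 := Real.mul_self_sqrt hx.le
  rw [div_mul_eq_mul_div, one_mul, div_eq_iff h1.ne', mul_assoc, h2]

theorem lowS (h : ℤ[X]) (hk : 2 ≤ h.natDegree) (hc : ∀ l, 0 ≤ h.coeff l) :
    ∃ K : ℕ, ∃ c₀ : ℝ, 0 < c₀ ∧ ∃ lam D : ℕ, 2 ≤ lam ∧ 1 ≤ D ∧ ∃ C : ℝ, 0 ≤ C ∧ ∃ Q₀ : ℕ,
      ∀ (Q W : ℕ) (δ : ℝ) (ρ : ℤ) (B : ℤ → ℝ) (g : ℕ → ℤ → ℝ), Q₀ ≤ Q → 1 ≤ W → 0 ≤ δ →
      Dat h K Q W c₀ δ ρ B g → ∀ I : ℕ, lam ^ (2 * I) ≤ Q →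
      ∃ cf : ℕ → ℝ, ∃ G : ℝ, 0 < G ∧ G ≤ ∑ m ∈ Ico 1 (lam ^ I * (Q * W) ^ D), cf m ∧
        ∀ α : ℝ, -(C * (δ + 1 / √(Q : ℝ) + (3 / 4 : ℝ) ^ I) * G) ≤
          (∑ m ∈ Ico 1 (lam ^ I * (Q * W) ^ D), (cf m : ℂ) * e (α * (h.eval (m : ℤ) : ℤ))).re := by
  have h0 : h ≠ 0 := fun h0 => by simp [h0] at hk
  have hl : 0 < h.leadingCoeff :=
    lt_of_le_of_ne (hc _) (Ne.symm (leadingCoeff_ne_zero.mpr h0))
  have hH := cvx_of_nonneg h hc
  obtain ⟨K, -, hK⟩ := dichS h (by omega) hl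
  obtain ⟨D, hD, C₁, hC₁, hsc⟩ := scale_major h hk hc K
  have hS1 : 1 ≤ h.eval 1 := by simpa using (eval_bounds h hc h0 1 le_rfl).1
  obtain ⟨S, hS⟩ : ∃ S : ℕ, h.eval 1 = S := ⟨(h.eval 1).toNat, (Int.toNat_of_nonneg (by omega)).symm⟩
  have hSn : 1 ≤ S := by omega
  have hSr : (1 : ℝ) ≤ S := by exact_mod_cast hSn
  obtain ⟨lam, hlam⟩ : ∃ lam : ℕ, lam = 2 * S := ⟨_, rfl⟩
  have hlamr : (lam : ℝ) = 2 * S := by rw [hlam]; push_cast; ring
  have hlam1 : (1 : ℝ) ≤ lam := by linarith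
  have hlamk : (lam : ℝ) ≤ (lam : ℝ) ^ h.natDegree := le_self_pow₀ hlam1 (by omega)
  obtain ⟨R, hR⟩ : ∃ R : ℝ, R = S * (lam : ℝ) ^ h.natDegree := ⟨_, rfl⟩
  have hR2 : 2 ≤ R := by rw [hR]; nlinarith
  obtain ⟨k, hkk⟩ : ∃ k : ℝ, k = h.natDegree := ⟨_, rfl⟩
  have hk0 : 0 ≤ k := by rw [hkk]; positivity
  obtain ⟨Q₁, hQ₁⟩ := exists_nat_ge (16 * C₁ + 2)
  refine ⟨K, 1 / (200 * R), by positivity, lam, D, by omega, hD, 320 * (C₁ + 1) + 64 * k,
    by positivity, Q₁, fun Q W δ ρ B g hQ hW hδ hdat I hI => ?_⟩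
  have hQr : 16 * C₁ + 2 ≤ Q := hQ₁.trans (by exact_mod_cast hQ)
  have hQ2 : 2 ≤ Q := by
    have : (2 : ℝ) ≤ Q := by linarith
    exact_mod_cast this
  have hQ0 : (0 : ℝ) < Q := by linarith
  obtain ⟨M, hM⟩ : ∃ M : ℕ → ℕ, M = fun i => lam ^ i * (Q * W) ^ D := ⟨_, rfl⟩
  have hMi : ∀ i, M i = lam ^ i * (Q * W) ^ D := fun i => by rw [hM]
  have hlp : ∀ i, 1 ≤ lam ^ i := fun i => Nat.one_le_pow _ _ (by omega)
  have hMD : ∀ i, (Q * W) ^ D ≤ M i := fun i => by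
    rw [hMi]; exact Nat.le_mul_of_pos_left _ (hlp i)
  have hWM : ∀ i, W ≤ M i := fun i =>
    le_trans (le_trans (Nat.le_mul_of_pos_left _ (by omega)) (Nat.le_self_pow (by omega) _)) (hMD i)
  have hM1 : ∀ i, 1 ≤ M i := fun i => hW.trans (hWM i)
  have hMs : ∀ i, (M (i + 1) : ℝ) = lam * M i := fun i => by
    rw [hMi, hMi]; push_cast; ring
  have hMI : ∀ i, i ≤ I → M i ≤ M I := fun i hi => by
    rw [hMi, hMi]
    exact Nat.mul_le_mul_right _ (Nat.pow_le_pow_right (by omega) hi)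
  obtain ⟨X, hX⟩ : ∃ X : ℕ → ℝ, X = fun i => ((h.eval (M i : ℤ) : ℤ) : ℝ) := ⟨_, rfl⟩
  have hXi : ∀ i, ((h.eval (M i : ℤ) : ℤ) : ℝ) = X i := fun i => by rw [hX]
  have hXl : ∀ i, (M i : ℝ) ^ h.natDegree ≤ X i := fun i => by
    rw [← hXi]; exact_mod_cast (eval_bounds h hc h0 (M i) (hM1 i)).1
  have hXu : ∀ i, X i ≤ S * (M i : ℝ) ^ h.natDegree := fun i => by
    have := (eval_bounds h hc h0 (M i) (hM1 i)).2.1
    rw [hS] at this
    rw [← hXi]; exact_mod_cast this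
  have hMp : ∀ i, (0 : ℝ) < M i := fun i => by exact_mod_cast hM1 i
  have hXp : ∀ i, 0 < X i := fun i => lt_of_lt_of_le (pow_pos (hMp i) _) (hXl i)
  have hXz : ∀ i, 0 < h.eval (M i : ℤ) := fun i => by
    have := hXp i
    rw [← hXi] at this
    exact_mod_cast this
  have h2 : ∀ i, 2 * X i ≤ X (i + 1) := fun i => by
    have a1 := hXu i
    have a2 := hXl (i + 1)
    rw [hMs, mul_pow] at a2
    have a3 := mul_le_mul_of_nonneg_right hlamk (pow_pos (hMp i) h.natDegree).le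
    rw [hlamr] at a3 a2
    linarith
  have hRX : ∀ i, X (i + 1) ≤ R * X i := fun i => by
    have a1 := hXu (i + 1)
    rw [hMs, mul_pow, ← mul_assoc, ← hR] at a1
    exact a1.trans (mul_le_mul_of_nonneg_left (hXl i) (by linarith))
  obtain ⟨T, hT⟩ : ∃ T : ℝ → ℕ → ℂ, T = fun α i => ∑ m ∈ range (M i),
      ((B m * wt g Q m * phi (fun m : ℕ => h.eval (m : ℤ)) (M i) m : ℝ) : ℂ) *
        e (α * (h.eval (m : ℤ) : ℤ)) := ⟨_, rfl⟩
  have hTi : ∀ α i, ∑ m ∈ range (M i),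
      ((B m * wt g Q m * phi (fun m : ℕ => h.eval (m : ℤ)) (M i) m : ℝ) : ℂ) *
        e (α * (h.eval (m : ℤ) : ℤ)) = T α i := fun α i => by rw [hT]
  have hsum : ∀ α : ℝ, ∑ m ∈ Ico 1 (lam ^ I * (Q * W) ^ D),
      ((∑ i ∈ range (I + 1), 1 / √(X i) * if m < M i then
        B m * wt g Q m * phi (fun m : ℕ => h.eval (m : ℤ)) (M i) m else 0 : ℝ) : ℂ) *
        e (α * (h.eval (m : ℤ) : ℤ)) = ∑ i ∈ range (I + 1), ((1 / √(X i) : ℝ) : ℂ) * T α i := by
    intro α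
    rw [← hMi, lowS_sum I M hMI (fun i => 1 / √(X i))
      (fun i m => B m * wt g Q m * phi (fun m : ℕ => h.eval (m : ℤ)) (M i) m)
      (fun i => by rw [phi_zero, mul_zero])]
    simp only [hTi]
  have hsI := Real.sqrt_pos.mpr (hXp I)
  have hsQ := Real.sqrt_pos.mpr hQ0
  have hQs : 1 / (Q : ℝ) ≤ 1 / √(Q : ℝ) :=
    one_div_le_one_div_of_le hsQ (Real.sqrt_le_iff.mpr ⟨hQ0.le, by nlinarith⟩)
  refine ⟨fun m => ∑ i ∈ range (I + 1), 1 / √(X i) * if m < M i then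
    B m * wt g Q m * phi (fun m : ℕ => h.eval (m : ℤ)) (M i) m else 0, √(X I) / 8,
    by positivity, ?_, fun α => ?_⟩
  · have e0 := congrArg Complex.re (hsum 0)
    simp only [zero_mul, e_zero, mul_one] at e0
    rw [← Complex.ofReal_sum, Complex.ofReal_re, Complex.re_sum] at e0
    rw [e0]
    have hterm : ∀ i, √(X i) / 8 ≤ (((1 / √(X i) : ℝ) : ℂ) * T 0 i).re := by
      intro i
      obtain ⟨b1, -, -, -, b5⟩ := hsc Q W ρ B g hQ2 hW hdat.cvx hdat.per hdat.bd (M i) (hMD i) 1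
        le_rfl (Nat.succ_le_of_lt (by positivity)) 0 0 (by rw [abs_zero, zero_mul]; positivity)
      rw [hdat.mass, one_mul, hTi, hXi] at b1
      rw [hXi] at b5
      have b6 := b5 (by rw [abs_zero, zero_mul]; norm_num)
      have b7 := (abs_le.mp ((Complex.abs_re_le_norm _).trans b1)).1
      rw [Complex.sub_re, show ((0 : ℤ) : ℝ) / ((1 : ℕ) : ℝ) + 0 = 0 by simp] at b7
      have b8 : C₁ / Q ≤ 1 / 16 := by
        rw [div_le_div_iff₀ hQ0 (by norm_num)]; linarith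
      have b9 := mul_le_mul_of_nonneg_right b8 (hXp i).le
      have b10 : 1 / 8 * X i ≤ (T 0 i).re := by linarith
      have b11 := mul_le_mul_of_nonneg_left b10 (show 0 ≤ 1 / √(X i) by positivity)
      rw [lowS_div (hXp i)] at b11
      rw [Complex.re_ofReal_mul]
      linarith
    refine le_trans ?_ (Finset.sum_le_sum fun i _ => hterm i)
    exact Finset.single_le_sum (f := fun i => √(X i) / 8) (fun i _ => by positivity)
      (mem_range.mpr (Nat.lt_succ_self I))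
  · rw [hsum α]
    have hu : (0 : ℝ) ≤ (3 / 4 : ℝ) ^ I := by positivity
    have hv : 0 ≤ 1 / √(Q : ℝ) := by positivity
    rcases hK W ρ B g hW hdat.cvx hdat.per hdat.bd Q hQ2 (M I) (hWM I) α with
      hmin | ⟨q₀, n, hq1, hq2, hnW, a, ha⟩
    · have hlI : (lam : ℝ) ^ I / Q ≤ 1 / √(Q : ℝ) := by
        have a1 : (lam : ℝ) ^ I ≤ √(Q : ℝ) := by
          refine Real.le_sqrt_of_sq_le ?_
          rw [← pow_mul, mul_comm]
          exact_mod_cast hI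
        rw [div_le_div_iff₀ hQ0 hsQ, one_mul]
        calc (lam : ℝ) ^ I * √(Q : ℝ) ≤ √(Q : ℝ) * √(Q : ℝ) := by gcongr
          _ = Q := Real.mul_self_sqrt hQ0.le
      have hterm : ∀ i ∈ range (I + 1), -(2 * k * (1 / √(Q : ℝ)) * √(X i)) ≤
          (((1 / √(X i) : ℝ) : ℂ) * T α i).re := by
        intro i hi
        have hi' := Nat.lt_succ_iff.mp (mem_range.mp hi)
        have hL : ((h.eval (M i : ℤ) : ℤ) : ℝ) - (h.eval ((M i - 1 : ℕ) : ℤ) : ℤ) ≤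
            k * X i / M i := by
          rw [le_div_iff₀ (hMp i), mul_comm, ← hXi, hkk]
          exact_mod_cast (eval_bounds h hc h0 (M i) (hM1 i)).2.2.2
        have b1 := minS hH (M i) (hXz i) _ hL (fun m => B m * wt g Q m) α _
          fun t ht => hmin t (ht.trans (hMI i hi'))
        rw [hTi] at b1
        have b2 : (M I : ℝ) ≤ (lam : ℝ) ^ I * M i := by
          have : M I ≤ lam ^ I * M i := by
            rw [hMi I]; exact Nat.mul_le_mul_left _ (hMD i)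
          exact_mod_cast this
        have b3 : 2 * ((M I : ℝ) / Q) * (k * X i / M i) ≤ 2 * k * (1 / √(Q : ℝ)) * X i := by
          have := hMp i
          have := hXp i
          calc 2 * ((M I : ℝ) / Q) * (k * X i / M i)
              ≤ 2 * ((lam : ℝ) ^ I * M i / Q) * (k * X i / M i) := by gcongr
            _ = 2 * k * ((lam : ℝ) ^ I / Q) * X i := by field_simp
            _ ≤ _ := by gcongr
        have b4 := (abs_le.mp ((Complex.abs_re_le_norm _).trans (b1.trans b3))).1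
        have b5 := mul_le_mul_of_nonneg_left b4 (show 0 ≤ 1 / √(X i) by positivity)
        rw [mul_neg, lowS_div (hXp i)] at b5
        rw [Complex.re_ofReal_mul]
        exact b5
      rw [Complex.re_sum]
      refine le_trans ?_ (Finset.sum_le_sum hterm)
      rw [Finset.sum_neg_distrib, ← Finset.mul_sum, neg_le_neg_iff]
      have c1 := mul_le_mul_of_nonneg_left (sum_sqrt_le X (hXp 0) h2 I)
        (show 0 ≤ 2 * k * (1 / √(Q : ℝ)) by positivity)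
      refine c1.trans ?_
      calc 2 * k * (1 / √(Q : ℝ)) * (4 * √(X I)) = 64 * k * (1 / √(Q : ℝ)) * (√(X I) / 8) := by
            ring
        _ ≤ _ := by
          gcongr
          · linarith
          · linarith
    · have hn1 : 1 ≤ n := Nat.pos_of_dvd_of_pos hnW hW
      have hq : 1 ≤ q₀ * n ^ h.natDegree := Nat.succ_le_of_lt (by positivity)
      have hqW : q₀ * n ^ h.natDegree ≤ Q ^ K * W ^ h.natDegree :=
        Nat.mul_le_mul hq2 (Nat.pow_le_pow_left (Nat.le_of_dvd hW hnW) _)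
      obtain ⟨t, ht0, ht1, hΛ⟩ := hdat.sect q₀ n hq1 hq2 hnW a
      obtain ⟨β, hβ⟩ : ∃ β, β = α - a / ((q₀ * n ^ h.natDegree : ℕ) : ℝ) := ⟨_, rfl⟩
      rw [← hβ] at ha
      have hαβ : a / ((q₀ * n ^ h.natDegree : ℕ) : ℝ) + β = α := by rw [hβ]; ring
      have hall := fun i (hi : i ≤ I) => hsc Q W ρ B g hQ2 hW hdat.cvx hdat.per hdat.bd (M i)
        (hMD i) _ hq hqW a β (le_trans (mul_le_mul_of_nonneg_left (pow_le_pow_left₀ (hMp i).le
          (by exact_mod_cast hMI i hi) _) (abs_nonneg β)) ha)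
      simp only [hαβ, hTi, hXi] at hall
      have key := sector R hR2 I X (hXp 0) h2 hRX (T α) (fun i => ∑ m ∈ range (M i),
        (phi (fun m : ℕ => h.eval (m : ℤ)) (M i) m : ℂ) * e (β * (h.eval (m : ℤ) : ℤ))) _ t δ
        (C₁ / Q) |β| ht0 ht1 hδ (by positivity) (abs_nonneg β) hΛ (fun i hi => (hall i hi).1)
        (fun i hi => (hall i hi).2.1) (fun i hi => (hall i hi).2.2.1)
        (fun i hi => (hall i hi).2.2.2.1) fun i hi => (hall i hi).2.2.2.2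
      refine le_trans (neg_le_neg ?_) key
      have c1 : C₁ / Q ≤ C₁ * (1 / √(Q : ℝ)) := by
        rw [div_eq_mul_one_div]; gcongr
      have c2 : C₁ / Q + δ + (3 / 4 : ℝ) ^ I ≤ (C₁ + 1) * (δ + 1 / √(Q : ℝ) + (3 / 4 : ℝ) ^ I) := by
        have := mul_nonneg hC₁ hδ
        have := mul_nonneg hC₁ hu
        linarith
      calc 40 * (C₁ / Q + δ + (3 / 4 : ℝ) ^ I) * √(X I)
          ≤ 40 * ((C₁ + 1) * (δ + 1 / √(Q : ℝ) + (3 / 4 : ℝ) ^ I)) * √(X I) := by gcongr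
        _ = 320 * (C₁ + 1) * (δ + 1 / √(Q : ℝ) + (3 / 4 : ℝ) ^ I) * (√(X I) / 8) := by ring
        _ ≤ _ := by
          gcongr
          linarith

end Vale.Agent.P042V
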