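import Vale.Agent.P042V.MajS
import Vale.Agent.P042V.ArchB

/-! The estimates at one scale with explicit parameters. -/

namespace Vale.Agent.P042V

open Polynomial Finset Vale.Agent.P042U

theorem scale_num (Q P V W M X S h0 k b q : ℝ) (hQ : 1 ≤ Q) (hP : 1 ≤ P) (hV : 1 ≤ V) (hW : 1 ≤ W)
    (hM : Q * (Q ^ 4 * P ^ 2 * V * W ^ 2) ≤ M) (hMX : M ≤ X) (hS : 0 ≤ S) (h0S : h0 ≤ S)
    (hk : 0 ≤ k) (hb0 : 0 ≤ b) (hb : b * X ≤ S * P) (hq : q ≤ P * V) :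
    2 * q * W ^ 2 * Q ^ 4 * (k * X / M * (2 + 2 * Real.pi * b * X)) ≤
      ((1 + S) + k * (1 + 8 * S) + 2 * k * (2 + 8 * S)) / Q * X ∧
    1 + h0 + k * X / M * (1 + 2 * Real.pi * b * X) ≤
      ((1 + S) + k * (1 + 8 * S) + 2 * k * (2 + 8 * S)) / Q * X := by
  obtain ⟨T, hT⟩ : ∃ T, T = Q ^ 4 * P ^ 2 * V * W ^ 2 := ⟨_, rfl⟩
  have hPT : P ≤ T := by
    rw [hT]
    have a1 : (1 : ℝ) ≤ Q ^ 4 := one_le_pow₀ hQ
    have a2 : (1 : ℝ) ≤ W ^ 2 := one_le_pow₀ hW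
    have a3 : P ≤ P ^ 2 := le_self_pow₀ hP two_ne_zero
    calc P = 1 * P * 1 * 1 := by ring
      _ ≤ Q ^ 4 * P ^ 2 * V * W ^ 2 := by gcongr
  rw [← hT] at hM
  have hT1 : 1 ≤ T := hP.trans hPT
  have hQM : Q ≤ M := le_trans (le_mul_of_one_le_right (by linarith) hT1) hM
  have hM0 : 0 < M := by linarith
  have hX0 : 0 < X := by linarith
  have hQ0 : 0 < Q := by linarith
  obtain ⟨r, hr⟩ : ∃ r, r = X / M := ⟨_, rfl⟩
  obtain ⟨u, hu⟩ : ∃ u, u = X / Q := ⟨_, rfl⟩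
  have hr0 : 0 ≤ r := by rw [hr]; positivity
  have hu1 : 1 ≤ u := by rw [hu, le_div_iff₀ hQ0]; linarith
  have hrT : r * T ≤ u := by
    rw [hr, hu, div_mul_eq_mul_div, div_le_div_iff₀ hM0 hQ0]
    nlinarith
  have hrP : r * P ≤ u := le_trans (mul_le_mul_of_nonneg_left hPT hr0) hrT
  have hpi : 2 * Real.pi * b * X ≤ 8 * S * P := by
    have h1 := Real.pi_le_four
    calc 2 * Real.pi * b * X = 2 * Real.pi * (b * X) := by ring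
      _ ≤ 2 * 4 * (S * P) := by gcongr
      _ = 8 * S * P := by ring
  have hpi0 : 0 ≤ 2 * Real.pi * b * X := by positivity
  have e1 : k * X / M = k * r := by rw [hr, mul_div_assoc]
  have e2 : ((1 + S) + k * (1 + 8 * S) + 2 * k * (2 + 8 * S)) / Q * X =
      ((1 + S) + k * (1 + 8 * S) + 2 * k * (2 + 8 * S)) * u := by rw [hu]; ring
  rw [e1, e2]
  have c1 : 0 ≤ (1 + S) * u := by positivity
  have c2 : 0 ≤ k * (1 + 8 * S) * u := by positivity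
  have c3 : 0 ≤ 2 * k * (2 + 8 * S) * u := by positivity
  constructor
  · have t3 : 2 * q * W ^ 2 * Q ^ 4 * (k * r * (2 + 2 * Real.pi * b * X)) ≤
        2 * (P * V) * W ^ 2 * Q ^ 4 * (k * r * ((2 + 8 * S) * P)) := by
      gcongr
      linarith
    have t4 : 2 * (P * V) * W ^ 2 * Q ^ 4 * (k * r * ((2 + 8 * S) * P)) =
        2 * k * (2 + 8 * S) * (r * T) := by rw [hT]; ring
    have t5 := mul_le_mul_of_nonneg_left hrT (by positivity : 0 ≤ 2 * k * (2 + 8 * S))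
    linarith
  · have a1 : k * r * (1 + 2 * Real.pi * b * X) ≤ k * r * ((1 + 8 * S) * P) := by
      gcongr
      linarith
    have a2 : 1 + h0 ≤ (1 + S) * u :=
      le_trans (by linarith) (le_mul_of_one_le_right (by linarith) hu1)
    have a3 := mul_le_mul_of_nonneg_left hrP (by positivity : 0 ≤ k * (1 + 8 * S))
    linarith

/-- all one-scale estimates on a major arc, with relative error `C / Q` -/
theorem scale_major (h : ℤ[X]) (hk : 2 ≤ h.natDegree) (hc : ∀ l, 0 ≤ h.coeff l) (K : ℕ) :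
    ∃ D : ℕ, 1 ≤ D ∧ ∃ C : ℝ, 0 ≤ C ∧ ∀ (Q W : ℕ) (ρ : ℤ) (B : ℤ → ℝ) (g : ℕ → ℤ → ℝ), 2 ≤ Q → 1 ≤ W →
      Cvex W ρ B → (∀ d : ℕ, Function.Periodic (g d) (d : ℤ)) →
      (∀ d : ℕ, 1 ≤ d → ∀ m, |g d m| ≤ (d : ℝ) ^ 2) →
      ∀ M : ℕ, (Q * W) ^ D ≤ M → ∀ q : ℕ, 1 ≤ q → q ≤ Q ^ K * W ^ h.natDegree → ∀ a : ℤ, ∀ β : ℝ,
      |β| * (M : ℝ) ^ h.natDegree ≤ (Q : ℝ) ^ K →
      let X : ℝ := (h.eval (M : ℤ) : ℤ)
      let J : ℂ := ∑ m ∈ range M,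
        (phi (fun m : ℕ => h.eval (m : ℤ)) M m : ℂ) * e (β * (h.eval (m : ℤ) : ℤ))
      ‖∑ m ∈ range M, ((B m * wt g Q m * phi (fun m : ℕ => h.eval (m : ℤ)) M m : ℝ) : ℂ) *
          e ((a / q + β) * (h.eval (m : ℤ) : ℤ)) - Lam h B g W Q q a * J‖ ≤ C / Q * X ∧
      -(C / Q * X) ≤ J.re ∧ ‖J‖ ≤ X ∧ |β| * ‖J‖ ≤ 1 + |β| * (C / Q * X) ∧
      (|β| * X ≤ 1 / 8 → X / 4 - C / Q * X ≤ J.re) := by
  have h0 : h ≠ 0 := fun h0 => by simp [h0] at hk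
  have hH := cvx_of_nonneg h hc
  have h00 : (0 : ℝ) ≤ (h.eval 0 : ℤ) := by exact_mod_cast (by simpa using hH.nonneg)
  obtain ⟨S, hS⟩ : ∃ S : ℝ, S = (h.eval 1 : ℤ) := ⟨_, rfl⟩
  have h0S : ((h.eval 0 : ℤ) : ℝ) ≤ S := by
    rw [hS]; exact_mod_cast (eval_bounds h hc h0 1 le_rfl).2.2.1
  have hS0 : 0 ≤ S := h00.trans h0S
  obtain ⟨k, hkk⟩ : ∃ k : ℝ, k = h.natDegree := ⟨_, rfl⟩
  have hk0 : 0 ≤ k := by rw [hkk]; positivity
  refine ⟨2 * K + h.natDegree + 7, by omega, (1 + S) + k * (1 + 8 * S) + 2 * k * (2 + 8 * S),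
    by positivity, fun Q W ρ B g hQ hW hB hper hbd M hM q hq1 hq2 a β hβ => ?_⟩
  intro X J
  have hQ2 : (2 : ℝ) ≤ Q := by exact_mod_cast hQ
  have hQ1 : (1 : ℝ) ≤ Q := by linarith
  have hW1 : (1 : ℝ) ≤ W := by exact_mod_cast hW
  have hM1 : 1 ≤ M := le_trans (Nat.one_le_pow _ _ (Nat.mul_pos (by omega) hW)) hM
  have hM0 : (0 : ℝ) < M := by exact_mod_cast hM1
  obtain ⟨b1, b2, -, b4⟩ := eval_bounds h hc h0 M hM1
  have hMX : (M : ℤ) ≤ h.eval (M : ℤ) :=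
    le_trans (le_self_pow₀ (by exact_mod_cast hM1) (by omega)) b1
  have hX : 0 < h.eval (M : ℤ) := lt_of_lt_of_le (by exact_mod_cast hM1) hMX
  have hXX : X = (h.eval (M : ℤ) : ℤ) := rfl
  have hMX' : (M : ℝ) ≤ X := by rw [hXX]; exact_mod_cast hMX
  have hX0 : 0 < X := hM0.trans_le hMX'
  have hXS : X ≤ S * (M : ℝ) ^ h.natDegree := by rw [hXX, hS]; exact_mod_cast b2
  have hL : ((h.eval (M : ℤ) : ℤ) : ℝ) - (h.eval ((M - 1 : ℕ) : ℤ) : ℤ) ≤ k * X / M := by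
    rw [le_div_iff₀ hM0, mul_comm, hXX, hkk]; exact_mod_cast b4
  have hP1 : (1 : ℝ) ≤ (Q : ℝ) ^ K := one_le_pow₀ hQ1
  have hV1 : (1 : ℝ) ≤ (W : ℝ) ^ h.natDegree := one_le_pow₀ hW1
  have hMQ : (Q : ℝ) * ((Q : ℝ) ^ 4 * ((Q : ℝ) ^ K) ^ 2 * (W : ℝ) ^ h.natDegree * (W : ℝ) ^ 2) ≤
      M := by
    have a0 : ((Q : ℝ) * W) ^ (2 * K + h.natDegree + 7) ≤ M := by exact_mod_cast hM
    have a1 : (Q : ℝ) ^ (2 * K + 5) ≤ (Q : ℝ) ^ (2 * K + h.natDegree + 7) :=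
      pow_le_pow_right₀ hQ1 (by omega)
    have a2 : (W : ℝ) ^ (h.natDegree + 2) ≤ (W : ℝ) ^ (2 * K + h.natDegree + 7) :=
      pow_le_pow_right₀ hW1 (by omega)
    calc _ = (Q : ℝ) ^ (2 * K + 5) * (W : ℝ) ^ (h.natDegree + 2) := by ring
      _ ≤ (Q : ℝ) ^ (2 * K + h.natDegree + 7) * (W : ℝ) ^ (2 * K + h.natDegree + 7) := by gcongr
      _ = ((Q : ℝ) * W) ^ (2 * K + h.natDegree + 7) := (mul_pow _ _ _).symm
      _ ≤ M := a0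
  have hbX : |β| * X ≤ S * (Q : ℝ) ^ K :=
    calc |β| * X ≤ |β| * (S * (M : ℝ) ^ h.natDegree) := by gcongr
      _ = S * (|β| * (M : ℝ) ^ h.natDegree) := by ring
      _ ≤ S * (Q : ℝ) ^ K := by gcongr
  have hq2' : (q : ℝ) ≤ (Q : ℝ) ^ K * (W : ℝ) ^ h.natDegree := by exact_mod_cast hq2
  obtain ⟨n1, n2⟩ := scale_num Q (Q ^ K) (W ^ h.natDegree) W M X S _ k |β| q hQ1 hP1 hV1 hW1 hMQ
    hMX' hS0 h0S hk0 (abs_nonneg _) hbX hq2'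
  have hβ2 : |β| ≤ 1 / 2 := by
    have a1 : 2 * (Q : ℝ) ^ K ≤ M := by
      refine le_trans ?_ hMQ
      have a2 : (1 : ℝ) ≤ (Q : ℝ) ^ 4 := one_le_pow₀ hQ1
      have a3 : (1 : ℝ) ≤ (W : ℝ) ^ 2 := one_le_pow₀ hW1
      have a4 : (Q : ℝ) ^ K ≤ ((Q : ℝ) ^ K) ^ 2 := le_self_pow₀ hP1 two_ne_zero
      calc 2 * (Q : ℝ) ^ K = 2 * (1 * (Q : ℝ) ^ K * 1 * 1) := by ring
        _ ≤ _ := by gcongr
    have a5 : (M : ℝ) ≤ (M : ℝ) ^ h.natDegree :=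
      le_self_pow₀ (by exact_mod_cast hM1) (by omega)
    have a6 : |β| * (2 * (Q : ℝ) ^ K) ≤ |β| * (M : ℝ) ^ h.natDegree :=
      mul_le_mul_of_nonneg_left (a1.trans a5) (abs_nonneg _)
    by_contra hcon
    push Not at hcon
    nlinarith
  have f1 := majS hH M hX _ hL hW hB hper hbd Q q hq1 a β
  have f2 := phi_fejer hH hX _ hL β
  have f3 := phi_norm_le hH hX β
  have f4 := phi_norm hH hX _ hL β hβ2
  simp only [Nat.cast_zero] at f2 f4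
  refine ⟨f1.trans n1, le_trans (neg_le_neg n2) f2, f3,
    f4.trans (add_le_add le_rfl (mul_le_mul_of_nonneg_left n2 (abs_nonneg _))), fun hs => ?_⟩
  have f5 := phi_small hH hX _ hL β hs
  simp only [Nat.cast_zero] at f5
  refine le_trans ?_ f5
  have a1 : k * X / M ≤ k * X / M * (1 + 2 * Real.pi * |β| * X) :=
    le_mul_of_one_le_right (by positivity) (le_add_of_nonneg_right (by positivity))
  rw [← hXX]
  linarith

end Vale.Agent.P042V
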