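import Vale.Agent.P042V.Tower
import Vale.Agent.P042V.Sector

/-! The small primes. -/

namespace Vale.Agent.P042V

open Polynomial Finset Vale.Agent.P042U

theorem sm_geom (τ : ℝ) (T : ℕ) : (1 - τ) * ∑ j ∈ range T, τ ^ j + τ ^ T = 1 := by
  induction T with
  | zero => simp
  | succ T ih => rw [sum_range_succ, pow_succ]; linarith

theorem sm_ind_mul {n₁ n₂ : ℕ} (hc : Nat.Coprime n₁ n₂) (ρ m : ℤ) :
    ind (n₁ * n₂) ρ m = ind n₁ ρ m * ind n₂ ρ m := by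
  have hc' : IsCoprime (n₁ : ℤ) (n₂ : ℤ) := Nat.isCoprime_iff_coprime.2 hc
  unfold ind
  by_cases h1 : (n₁ : ℤ) ∣ m - ρ
  · by_cases h2 : (n₂ : ℤ) ∣ m - ρ
    · rw [if_pos h1, if_pos h2, if_pos (by push_cast; exact hc'.mul_dvd h1 h2)]; push_cast; rfl
    · rw [if_neg h2, mul_zero, if_neg]
      intro h; push_cast at h; exact h2 (dvd_of_mul_left_dvd h)
  · rw [if_neg h1, zero_mul, if_neg]
    intro h; push_cast at h; exact h1 (dvd_of_mul_right_dvd h)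

theorem sm_cvex_mul {W₁ W₂ : ℕ} {ρ : ℤ} {B₁ B₂ : ℤ → ℝ} (hc : Nat.Coprime W₁ W₂)
    (h₁ : Cvex W₁ ρ B₁) (h₂ : Cvex W₂ ρ B₂) : Cvex (W₁ * W₂) ρ (fun m => B₁ m * B₂ m) := by
  obtain ⟨ι₁, s₁, n₁, c₁, a₁, b₁, e₁⟩ := h₁
  obtain ⟨ι₂, s₂, n₂, c₂, a₂, b₂, e₂⟩ := h₂
  refine ⟨ι₁ × ι₂, s₁ ×ˢ s₂, fun i => n₁ i.1 * n₂ i.2, fun i => c₁ i.1 * c₂ i.2,
    fun i hi => ?_, ?_, fun m => ?_⟩
  · obtain ⟨h1, h2⟩ := mem_product.1 hi
    exact ⟨mul_dvd_mul (a₁ _ h1).1 (a₂ _ h2).1, mul_nonneg (a₁ _ h1).2 (a₂ _ h2).2⟩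
  · rw [sum_product]
    simp only
    rw [← sum_mul_sum, b₁, b₂, one_mul]
  · simp only
    rw [e₁, e₂, sum_mul_sum, sum_product]
    refine sum_congr rfl fun i hi => sum_congr rfl fun j hj => ?_
    simp only
    rw [sm_ind_mul (Nat.Coprime.coprime_dvd_right (a₂ _ hj).1
      (Nat.Coprime.coprime_dvd_left (a₁ _ hi).1 hc))]
    ring

theorem sm_cvex_tow (τ : ℝ) (h0 : 0 ≤ τ) (h1 : τ ≤ 1) (T p : ℕ) : Cvex (p ^ T) 0 (tow τ T p) := by
  refine ⟨ℕ, range (T + 1), fun j => p ^ j, fun j => if j < T then (1 - τ) * τ ^ j else τ ^ T,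
    fun j hj => ⟨pow_dvd_pow _ (Nat.lt_succ_iff.1 (mem_range.1 hj)), ?_⟩, ?_, fun m => ?_⟩
  · simp only
    split_ifs
    · exact mul_nonneg (by linarith) (pow_nonneg h0 _)
    · exact pow_nonneg h0 _
  · rw [sum_range_succ, if_neg (lt_irrefl T)]
    refine Eq.trans ?_ (sm_geom τ T)
    rw [mul_sum]
    congr 1
    refine sum_congr rfl fun j hj => ?_
    rw [if_pos (mem_range.1 hj)]
  · simp only
    rw [sum_range_succ, if_neg (lt_irrefl T), tow, mul_sum]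
    congr 1
    refine sum_congr rfl fun j hj => ?_
    rw [if_pos (mem_range.1 hj)]; ring

theorem sm_cop {p : ℕ} {P : Finset ℕ} (hpP : p ∉ P) (hP : ∀ r ∈ insert p P, r.Prime) (T : ℕ) :
    Nat.Coprime p (∏ r ∈ P, r ^ T) :=
  Nat.Coprime.prod_right fun r hr => Nat.Coprime.pow_right _
    ((Nat.coprime_primes (hP p (mem_insert_self _ _)) (hP r (mem_insert_of_mem hr))).2
      fun h => hpP (h ▸ hr))

theorem cvex_prod (τ : ℝ) (h0 : 0 ≤ τ) (h1 : τ ≤ 1) (T : ℕ) (P : Finset ℕ)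
    (hP : ∀ p ∈ P, p.Prime) : Cvex (∏ p ∈ P, p ^ T) 0 (fun m => ∏ p ∈ P, tow τ T p m) := by
  induction P using Finset.induction_on with
  | empty =>
    refine ⟨Unit, {()}, fun _ => 1, fun _ => 1, fun _ _ => ⟨one_dvd _, zero_le_one⟩, by simp,
      fun m => ?_⟩
    simp [ind]
  | insert p P hpP ih =>
    simp only [prod_insert hpP]
    exact sm_cvex_mul (Nat.Coprime.pow_left _ (sm_cop hpP hP T)) (sm_cvex_tow τ h0 h1 T p)
      (ih fun r hr => hP r (mem_insert_of_mem hr))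

theorem Cvex.shift {W : ℕ} {B : ℤ → ℝ} (hB : Cvex W 0 B) (ρ : ℤ) :
    Cvex W ρ (fun m => B (m - ρ)) := by
  obtain ⟨ι, s, n, c, a, b, e⟩ := hB
  refine ⟨ι, s, n, c, a, b, fun m => ?_⟩
  simp only
  rw [e]
  refine sum_congr rfl fun i _ => ?_
  simp only [ind, sub_zero]

theorem sm_tow_per (τ : ℝ) (T p d : ℕ) (hd : p ^ T ∣ d) :
    Function.Periodic (tow τ T p) (d : ℤ) := by
  intro m
  unfold tow
  rw [tw_ind_per _ _ hd 0 m]
  congr 2
  refine sum_congr rfl fun j hj => ?_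
  rw [tw_ind_per _ _ ((pow_dvd_pow _ (mem_range.1 hj).le).trans hd) 0 m]

theorem sm_prod_per (τ : ℝ) (T : ℕ) (P : Finset ℕ) :
    Function.Periodic (fun m => ∏ p ∈ P, tow τ T p m) ((∏ p ∈ P, p ^ T : ℕ) : ℤ) := by
  intro m
  exact prod_congr rfl fun p hp =>
    sm_tow_per τ T p _ (dvd_prod_of_mem (fun r => r ^ T) hp) m

theorem sm_base (f : ℤ[X]) (a : ℤ) : Del f (fun _ => 1) 1 1 a = 1 := by
  simp [Del, av, -Int.cast_mul, e_int]

theorem sm_loc_norm (f : ℤ[X]) (p : ℕ) (hp : p.Prime) (τ : ℝ) (h0 : 0 ≤ τ) (h1 : τ ≤ 1)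
    (T s : ℕ) (a : ℤ) : ‖Del f (tow τ T p) (p ^ T) (p ^ s) a‖ ≤ 1 := by
  rw [Del_tow f p hp]
  have hj : ∀ j, ‖(τ : ℂ) ^ j * thj f p s a j‖ ≤ τ ^ j := fun j => by
    rw [norm_mul, norm_pow, Complex.norm_real, Real.norm_eq_abs, abs_of_nonneg h0]
    exact mul_le_of_le_one_right (pow_nonneg h0 j) (norm_thj_le f p s a j)
  refine (norm_add_le _ _).trans (le_trans (add_le_add ?_ (hj T)) (sm_geom τ T).le)
  rw [norm_mul, Complex.norm_real, Real.norm_eq_abs, abs_of_nonneg (by linarith : 0 ≤ 1 - τ)]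
  exact mul_le_mul_of_nonneg_left ((norm_sum_le _ _).trans (sum_le_sum fun j _ => hj j))
    (by linarith)

/-- the multiplier of the product of towers over the primes of `P` -/
theorem small_sec (k : ℕ) : ∃ x₀ : ℝ, 0 ≤ x₀ ∧ x₀ < 1 ∧ ∀ f : ℤ[X], f.natDegree ≤ k →
    ∀ τ ζ : ℝ, x₀ < τ → τ ≤ 1 → (1 - τ) * (2 * x₀ / (τ - x₀)) ≤ ζ → ∀ T : ℕ, ∀ P : Finset ℕ,
    (∀ p ∈ P, p.Prime) → ∀ q : ℕ, 1 ≤ q → q.primeFactors ⊆ P → (q : ℤ) ∣ f.coeff 0 → ∀ a : ℤ,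
    ‖Del f (fun m => ∏ p ∈ P, tow τ T p m) (∏ p ∈ P, p ^ T) q a‖ ≤ 1 ∧
    (‖Del f (fun m => ∏ p ∈ P, tow τ T p m) (∏ p ∈ P, p ^ T) q a‖ ≤ (1 + ζ) * τ ^ T ∨
      Sec ((1 + ζ) ^ P.card - 1)
        (Del f (fun m => ∏ p ∈ P, tow τ T p m) (∏ p ∈ P, p ^ T) q a)) := by
  obtain ⟨η, hη, HJ⟩ := tower_J k
  have hx0 : (0 : ℝ) ≤ (2 : ℝ) ^ (-η) := by positivity
  have hx1 : (2 : ℝ) ^ (-η) < 1 := Real.rpow_lt_one_of_one_lt_of_neg (by norm_num) (by linarith)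
  refine ⟨(2 : ℝ) ^ (-η), hx0, hx1, fun f hf τ ζ hτ hτ1 hζ T P => ?_⟩
  set x₀ : ℝ := (2 : ℝ) ^ (-η) with hx₀
  have hτ0 : 0 ≤ τ := hx0.trans hτ.le
  have hd0 : 0 < τ - x₀ := by linarith
  have hζ0 : 0 ≤ ζ := le_trans (mul_nonneg (by linarith) (by positivity)) hζ
  have hloc : ∀ p : ℕ, p.Prime → ∀ s : ℕ, (p : ℤ) ^ s ∣ f.coeff 0 → ∀ a : ℤ,
      ‖Del f (tow τ T p) (p ^ T) (p ^ s) a‖ ≤ (1 + ζ) * τ ^ T ∨
        Sec ζ (Del f (tow τ T p) (p ^ T) (p ^ s) a) := by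
    intro p hp s hs a
    obtain ⟨J, -, hJ1, hJ2⟩ := HJ f hf p hp s hs a
    have hp2 : (2 : ℝ) ≤ p := by exact_mod_cast hp.two_le
    have hxx : (p : ℝ) ^ (-η) ≤ x₀ := Real.rpow_le_rpow_of_nonpos (by norm_num) hp2 (by linarith)
    have h3 := tower_sec (thj f p s a) J T x₀ τ ζ hx0 hτ hτ1 hζ (norm_thj_le f p s a) hJ1
      (fun j hj => (hJ2 j hj).trans (mul_le_mul_of_nonneg_left
        (pow_le_pow_left₀ (by positivity) hxx _) (by norm_num))) hx1.le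
    rw [Del_tow f p hp]
    rcases le_or_gt J T with h | h
    · exact Or.inr (h3.1 h)
    · exact Or.inl (h3.2 h)
  induction P using Finset.induction_on with
  | empty =>
    intro _ q hq hsub _ a
    have hq1 : q = 1 := by
      have := Nat.primeFactors_eq_empty.1 (subset_empty.1 hsub)
      omega
    subst hq1
    simp only [prod_empty, sm_base, card_empty, pow_zero, sub_self]
    exact ⟨by simp, Or.inr ⟨1, zero_le_one, le_rfl, by simp⟩⟩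
  | insert p P hpP ih =>
    intro hP q hq hsub hdv a
    have hp : p.Prime := hP p (mem_insert_self _ _)
    obtain ⟨s, q', hq', rfl⟩ := Nat.exists_eq_pow_mul_and_not_dvd (by omega : q ≠ 0) p hp.ne_one
    have hq'0 : q' ≠ 0 := by rintro rfl; simp at hq'
    have hps : p ^ s ≠ 0 := pow_ne_zero _ hp.ne_zero
    have cq : Nat.Coprime p q' := (Nat.Prime.coprime_iff_not_dvd hp).2 hq'
    have c2 : Nat.Coprime (p ^ s) q' := Nat.Coprime.pow_left _ cq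
    have c3 : Nat.Coprime (p ^ T * p ^ s) ((∏ r ∈ P, r ^ T) * q') := by
      rw [← pow_add]
      exact Nat.Coprime.pow_left _ (Nat.Coprime.mul_right (sm_cop hpP hP T) cq)
    obtain ⟨u, v, huv⟩ : IsCoprime ((p ^ s : ℕ) : ℤ) (q' : ℤ) := Nat.isCoprime_iff_coprime.2 c2
    have ea : a = (a * v) * (q' : ℕ) + (a * u) * ((p ^ s : ℕ) : ℤ) := by
      calc a = a * 1 := by ring
        _ = a * (u * ((p ^ s : ℕ) : ℤ) + v * (q' : ℤ)) := by rw [huv]
        _ = _ := by ring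
    have hsub' : q'.primeFactors ⊆ P := fun r hr => by
      have h1 : r ∈ (p ^ s * q').primeFactors :=
        Nat.primeFactors_mono (Dvd.intro_left _ rfl) (by omega) hr
      rcases mem_insert.1 (hsub h1) with h | h
      · exact absurd (h ▸ Nat.dvd_of_mem_primeFactors hr) hq'
      · exact h
    push_cast at hdv
    have i1 := sm_loc_norm f p hp τ hτ0 hτ1 T s (a * v)
    have i2 := hloc p hp s (dvd_of_mul_right_dvd hdv) (a * v)
    obtain ⟨i3, i4⟩ := ih (fun r hr => hP r (mem_insert_of_mem hr)) q' (Nat.pos_of_ne_zero hq'0)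
      hsub' (dvd_of_mul_left_dvd hdv) (a * u)
    simp only [prod_insert hpP]
    rw [ea, Del_mul f (sm_tow_per τ T p _ dvd_rfl) (sm_prod_per τ T P) (Nat.pos_of_ne_zero hps)
      (Nat.pos_of_ne_zero hq'0) c3, norm_mul]
    refine ⟨mul_le_one₀ i1 (norm_nonneg _) i3, ?_⟩
    rcases i2 with i2 | i2
    · exact Or.inl ((mul_le_of_le_one_right (norm_nonneg _) i3).trans i2)
    rcases i4 with i4 | i4
    · exact Or.inl ((mul_le_of_le_one_left (norm_nonneg _) i1).trans i4)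
    have h5 := Sec.mul i2 i4 hζ0 (sub_nonneg.2 (one_le_pow₀ (by linarith)))
    have e1 : (1 + ζ) ^ (insert p P).card - 1 = (1 + ζ) * (1 + ((1 + ζ) ^ P.card - 1)) - 1 := by
      rw [card_insert_of_notMem hpP, pow_succ]; ring
    rw [e1]
    exact Or.inr h5

theorem small_mass (f : ℤ[X]) (τ : ℝ) (T : ℕ) (P : Finset ℕ) (hP : ∀ p ∈ P, p.Prime) :
    Del f (fun m => ∏ p ∈ P, tow τ T p m) (∏ p ∈ P, p ^ T) 1 0 = 1 := by
  induction P using Finset.induction_on with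
  | empty => simp only [prod_empty, sm_base]
  | insert p P hpP ih =>
    have hp : p.Prime := hP p (mem_insert_self _ _)
    have c3 : Nat.Coprime (p ^ T * 1) ((∏ r ∈ P, r ^ T) * 1) := by
      rw [mul_one, mul_one]
      exact Nat.Coprime.pow_left _ (sm_cop hpP hP T)
    have h1 := Del_mul f (sm_tow_per τ T p _ dvd_rfl) (sm_prod_per τ T P) le_rfl le_rfl c3 0 0
    rw [ih fun r hr => hP r (mem_insert_of_mem hr), mul_one, zero_mul, add_zero, mul_one] at h1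
    simp only [prod_insert hpP]
    rw [h1]
    have h2 := Del_tow f p hp τ T 0 0
    have h3 : ∀ j, thj f p 0 0 j = 1 := fun j =>
      th_eq_one _ _ (by simp) fun l => by simp
    rw [pow_zero] at h2
    rw [h2]
    simp only [h3, mul_one]
    exact_mod_cast sm_geom τ T

end Vale.Agent.P042V
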