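import Vale.Agent.P042V.Defs

/-! Towers of complete sums. -/

namespace Vale.Agent.P042V

open Polynomial Finset Vale.Agent.P042U

theorem tw_coeff (f : ℤ[X]) (p j l : ℕ) (a : ℤ) :
    (C a * f.comp (C ((p ^ j : ℕ) : ℤ) * X)).coeff l = a * f.coeff l * (p : ℤ) ^ (j * l) := by
  rw [coeff_C_mul, comp_C_mul_X_coeff]; push_cast; rw [pow_mul]; ring

theorem tw_deg (f : ℤ[X]) (c a : ℤ) : (C a * f.comp (C c * X)).natDegree ≤ f.natDegree := by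
  refine (natDegree_C_mul_le _ _).trans (natDegree_comp_le.trans ?_)
  have : (C c * X : ℤ[X]).natDegree ≤ 1 := (natDegree_C_mul_le _ _).trans natDegree_X_le
  exact (Nat.mul_le_mul_left _ this).trans (le_of_eq (mul_one _))

theorem tower_J (k : ℕ) : ∃ η : ℝ, 0 < η ∧ ∀ f : ℤ[X], f.natDegree ≤ k → ∀ p : ℕ, p.Prime →
    ∀ s : ℕ, (p : ℤ) ^ s ∣ f.coeff 0 → ∀ a : ℤ, ∃ J : ℕ, J ≤ s ∧ (∀ j, J ≤ j → thj f p s a j = 1) ∧
      ∀ j, j < J → ‖thj f p s a j‖ ≤ 2 * ((p : ℝ) ^ (-η)) ^ (J - j) := by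
  classical
  obtain ⟨η, hη, H⟩ := hua_pp k
  refine ⟨η, hη, fun f hf p hp s h0 a => ?_⟩
  have hz : ∀ j : ℕ, (p : ℤ) ^ s ∣ a * f.coeff 0 * (p : ℤ) ^ (j * 0) := fun j =>
    (h0.mul_left a).mul_right _
  have hs : ∀ l, (p : ℤ) ^ s ∣ a * f.coeff l * (p : ℤ) ^ (s * l) := by
    intro l
    rcases Nat.eq_zero_or_pos l with rfl | hl
    · exact hz s
    · exact Dvd.dvd.mul_left (pow_dvd_pow _ (Nat.le_mul_of_pos_right s hl)) _
  have hex : ∃ j : ℕ, ∀ l, (p : ℤ) ^ s ∣ a * f.coeff l * (p : ℤ) ^ (j * l) := ⟨s, hs⟩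
  refine ⟨Nat.find hex, Nat.find_min' hex hs, fun j hj => ?_, fun j hj => ?_⟩
  · refine th_eq_one _ _ (Nat.pos_of_ne_zero (pow_ne_zero _ hp.ne_zero)) fun l => ?_
    rw [tw_coeff]; push_cast
    exact (Nat.find_spec hex l).trans
      (mul_dvd_mul_left _ (pow_dvd_pow _ (Nat.mul_le_mul_right l hj)))
  · have h1 := Nat.find_min hex (m := Nat.find hex - 1) (by omega)
    push Not at h1
    obtain ⟨l, hl⟩ := h1
    have hl1 : 1 ≤ l := by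
      rcases Nat.eq_zero_or_pos l with rfl | h
      · exact absurd (hz _) hl
      · exact h
    obtain ⟨i, hi⟩ : ∃ i, Nat.find hex = j + i + 1 := ⟨Nat.find hex - j - 1, by omega⟩
    have h2 := H (C a * f.comp (C ((p ^ j : ℕ) : ℤ) * X)) ((tw_deg f _ a).trans hf) p hp s i l hl1
      (fun hd => hl (hd.trans (by
        rw [tw_coeff, hi, Nat.add_sub_cancel, mul_left_comm, ← pow_add]
        refine mul_dvd_mul_left _ (pow_dvd_pow _ ?_)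
        have := Nat.le_mul_of_pos_right i hl1
        rw [add_mul]; omega)))
    have e1 : Nat.find hex - j = i + 1 := by omega
    rw [e1]; exact h2

theorem norm_thj_le (f : ℤ[X]) (p s : ℕ) (a : ℤ) (j : ℕ) : ‖thj f p s a j‖ ≤ 1 :=
  norm_av_le _ _ 1 zero_le_one fun _ => (norm_e _).le

theorem tw_geom {x τ : ℝ} (hx : 0 ≤ x) (n : ℕ) :
    (τ - x) * ∑ j ∈ range n, τ ^ j * x ^ (n - j) = x * τ ^ n - x ^ (n + 1) := by
  induction n with
  | zero => simp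
  | succ n ih =>
    rw [sum_range_succ]
    have e1 : ∑ j ∈ range n, τ ^ j * x ^ (n + 1 - j) = x * ∑ j ∈ range n, τ ^ j * x ^ (n - j) := by
      rw [mul_sum]
      refine sum_congr rfl fun j hj => ?_
      have : n + 1 - j = (n - j) + 1 := by have := mem_range.1 hj; omega
      rw [this, pow_succ]; ring
    rw [e1, Nat.add_sub_cancel_left, pow_one, mul_add, mul_left_comm, ih]
    ring

theorem tw_head (θ : ℕ → ℂ) (n : ℕ) (x τ ζ : ℝ) (hx : 0 ≤ x) (hxτ : x < τ) (hτ : τ ≤ 1)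
    (hζ : (1 - τ) * (2 * x / (τ - x)) ≤ ζ) (hlt : ∀ j, j < n → ‖θ j‖ ≤ 2 * x ^ (n - j)) :
    ‖((1 - τ : ℝ) : ℂ) * ∑ j ∈ range n, (τ : ℂ) ^ j * θ j‖ ≤ ζ * τ ^ n := by
  have hτ0 : 0 < τ := hx.trans_lt hxτ
  have hd : 0 < τ - x := by linarith
  have h1 : ‖∑ j ∈ range n, (τ : ℂ) ^ j * θ j‖ ≤ 2 * ∑ j ∈ range n, τ ^ j * x ^ (n - j) := by
    rw [mul_sum]
    refine (norm_sum_le _ _).trans (sum_le_sum fun j hj => ?_)
    rw [norm_mul, norm_pow, Complex.norm_real, Real.norm_eq_abs, abs_of_pos hτ0]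
    have := mul_le_mul_of_nonneg_left (hlt j (mem_range.1 hj)) (pow_pos hτ0 j).le
    linarith
  have h2 : 2 * ∑ j ∈ range n, τ ^ j * x ^ (n - j) ≤ 2 * x / (τ - x) * τ ^ n := by
    rw [div_mul_eq_mul_div, le_div_iff₀ hd]
    have h3 := tw_geom (τ := τ) hx n
    have h4 : 0 ≤ x ^ (n + 1) := by positivity
    nlinarith
  rw [norm_mul, Complex.norm_real, Real.norm_eq_abs, abs_of_nonneg (by linarith : 0 ≤ 1 - τ)]
  calc (1 - τ) * ‖∑ j ∈ range n, (τ : ℂ) ^ j * θ j‖ ≤ (1 - τ) * (2 * x / (τ - x) * τ ^ n) :=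
        mul_le_mul_of_nonneg_left (h1.trans h2) (by linarith)
    _ = (1 - τ) * (2 * x / (τ - x)) * τ ^ n := by ring
    _ ≤ _ := mul_le_mul_of_nonneg_right hζ (pow_pos hτ0 n).le

/-- pure analysis of a tower -/
theorem tower_sec (θ : ℕ → ℂ) (J T : ℕ) (x τ ζ : ℝ) (hx : 0 ≤ x) (hxτ : x < τ) (hτ : τ ≤ 1)
    (hζ : (1 - τ) * (2 * x / (τ - x)) ≤ ζ) (h1 : ∀ j, ‖θ j‖ ≤ 1) (hJ : ∀ j, J ≤ j → θ j = 1)
    (hlt : ∀ j, j < J → ‖θ j‖ ≤ 2 * x ^ (J - j)) (hx1 : x ≤ 1) :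
    (J ≤ T → Sec ζ (((1 - τ : ℝ) : ℂ) * ∑ j ∈ range T, (τ : ℂ) ^ j * θ j + (τ : ℂ) ^ T * θ T)) ∧
    (T < J → ‖((1 - τ : ℝ) : ℂ) * ∑ j ∈ range T, (τ : ℂ) ^ j * θ j + (τ : ℂ) ^ T * θ T‖ ≤
      (1 + ζ) * τ ^ T) := by
  have hτ0 : 0 < τ := hx.trans_lt hxτ
  constructor
  · intro hJT
    have e1 : ∀ n, J ≤ n → ((1 - τ : ℝ) : ℂ) * ∑ j ∈ range n, (τ : ℂ) ^ j * θ j + (τ : ℂ) ^ n * θ n =
        ((1 - τ : ℝ) : ℂ) * ∑ j ∈ range J, (τ : ℂ) ^ j * θ j + (τ : ℂ) ^ J := by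
      intro n hn
      induction n, hn using Nat.le_induction with
      | base => rw [hJ J le_rfl, mul_one]
      | succ n hn ih =>
        rw [← ih, sum_range_succ, hJ n hn, hJ (n + 1) (by omega)]
        push_cast; ring
    refine ⟨τ ^ J, (pow_pos hτ0 J).le, pow_le_one₀ hτ0.le hτ, ?_⟩
    rw [e1 T hJT, Complex.ofReal_pow, add_sub_cancel_right]
    exact tw_head θ J x τ ζ hx hxτ hτ hζ hlt
  · intro hTJ
    have h2 := tw_head θ T x τ ζ hx hxτ hτ hζ fun j hj =>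
      (hlt j (hj.trans hTJ)).trans (mul_le_mul_of_nonneg_left
        (pow_le_pow_of_le_one hx hx1 (by omega)) (by norm_num))
    have h3 : ‖(τ : ℂ) ^ T * θ T‖ ≤ τ ^ T := by
      rw [norm_mul, norm_pow, Complex.norm_real, Real.norm_eq_abs, abs_of_pos hτ0]
      exact mul_le_of_le_one_right (pow_pos hτ0 T).le (h1 T)
    refine (norm_add_le _ _).trans ?_
    linarith

theorem tw_Del_add (h : ℤ[X]) (g₁ g₂ : ℤ → ℝ) (d q : ℕ) (a : ℤ) :
    Del h (fun m => g₁ m + g₂ m) d q a = Del h g₁ d q a + Del h g₂ d q a := by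
  unfold Del
  rw [← av_add]; congr 1; funext m; push_cast; ring

theorem tw_Del_sub (h : ℤ[X]) (g₁ g₂ : ℤ → ℝ) (d q : ℕ) (a : ℤ) :
    Del h (fun m => g₁ m - g₂ m) d q a = Del h g₁ d q a - Del h g₂ d q a := by
  unfold Del
  rw [← av_sub]; congr 1; funext m; push_cast; ring

theorem tw_Del_smul (h : ℤ[X]) (c : ℝ) (g : ℤ → ℝ) (d q : ℕ) (a : ℤ) :
    Del h (fun m => c * g m) d q a = (c : ℂ) * Del h g d q a := by
  unfold Del
  rw [← av_smul]; congr 1; funext m; push_cast; ring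

theorem tw_Del_sum {ι : Type*} (s : Finset ι) (h : ℤ[X]) (g : ι → ℤ → ℝ) (d q : ℕ) (a : ℤ) :
    Del h (fun m => ∑ i ∈ s, g i m) d q a = ∑ i ∈ s, Del h (g i) d q a := by
  unfold Del
  rw [← av_sum]; congr 1; funext m; push_cast; rw [sum_mul]

theorem tw_Del_zero (h : ℤ[X]) (d q : ℕ) (a : ℤ) : Del h (fun _ => 0) d q a = 0 := by
  simp [Del, av]

theorem tw_Del_ind (f : ℤ[X]) (p : ℕ) (hp : p.Prime) (j T s : ℕ) (hj : j ≤ T) (a : ℤ) :
    Del f (ind (p ^ j) 0) (p ^ T) (p ^ s) a = thj f p s a j := by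
  have := Del_ind f (p ^ j) (p ^ T) (p ^ s) (pow_dvd_pow _ hj)
    (Nat.pos_of_ne_zero (pow_ne_zero _ hp.ne_zero))
    (Nat.pos_of_ne_zero (pow_ne_zero _ hp.ne_zero)) a
  rw [thj, ← this]
  congr 1; funext m; rw [ind, sub_zero]

theorem Del_tow (f : ℤ[X]) (p : ℕ) (hp : p.Prime) (τ : ℝ) (T s : ℕ) (a : ℤ) :
    Del f (tow τ T p) (p ^ T) (p ^ s) a =
      ((1 - τ : ℝ) : ℂ) * ∑ j ∈ range T, (τ : ℂ) ^ j * thj f p s a j + (τ : ℂ) ^ T * thj f p s a T := by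
  have e0 : tow τ T p = fun m => (1 - τ) * ∑ j ∈ range T, τ ^ j * ind (p ^ j) 0 m +
      τ ^ T * ind (p ^ T) 0 m := rfl
  rw [e0, tw_Del_add, tw_Del_smul, tw_Del_smul, tw_Del_sum, tw_Del_ind f p hp T T s le_rfl,
    Complex.ofReal_pow]
  congr 2
  refine sum_congr rfl fun j hj => ?_
  rw [tw_Del_smul, tw_Del_ind f p hp j T s (mem_range.1 hj).le, Complex.ofReal_pow]

theorem tw_gam_succ (σ : ℝ) (p j : ℕ) : gam σ p (j + 1) = fun m =>
    ((p : ℝ) ^ (-σ)) ^ (j + 1) * (ind (p ^ (j + 1)) 0 m - ind (p ^ j) 0 m) := by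
  funext m
  rw [gam, if_neg (Nat.succ_ne_zero j), ind, ind, sub_zero, Nat.add_sub_cancel]
  push_cast; rfl

theorem tw_gam_zero (σ : ℝ) (p : ℕ) : gam σ p 0 = ind (p ^ 0) 0 := by
  funext m
  simp [gam, ind]

theorem tw_Del_gam (f : ℤ[X]) (p : ℕ) (hp : p.Prime) (σ : ℝ) (j s : ℕ) (a : ℤ) :
    Del f (gam σ p (j + 1)) (p ^ (j + 1)) (p ^ s) a =
      (((p : ℝ) ^ (-σ) : ℝ) : ℂ) ^ (j + 1) * (thj f p s a (j + 1) - thj f p s a j) := by
  rw [tw_gam_succ, tw_Del_smul, tw_Del_sub, tw_Del_ind f p hp _ _ s le_rfl,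
    tw_Del_ind f p hp j _ s (Nat.le_succ j), Complex.ofReal_pow]

theorem sum_Del_gam (f : ℤ[X]) (p : ℕ) (hp : p.Prime) (σ : ℝ) (s : ℕ) (a : ℤ) :
    ∑ j ∈ range (s + 1), Del f (gam σ p j) (p ^ j) (p ^ s) a =
      ((1 - (p : ℝ) ^ (-σ) : ℝ) : ℂ) * ∑ j ∈ range s, (((p : ℝ) ^ (-σ) : ℝ) : ℂ) ^ j * thj f p s a j +
        (((p : ℝ) ^ (-σ) : ℝ) : ℂ) ^ s * thj f p s a s := by
  have key : ∀ n : ℕ, ∑ j ∈ range (n + 1), Del f (gam σ p j) (p ^ j) (p ^ s) a =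
      ((1 - (p : ℝ) ^ (-σ) : ℝ) : ℂ) *
        ∑ j ∈ range n, (((p : ℝ) ^ (-σ) : ℝ) : ℂ) ^ j * thj f p s a j +
        (((p : ℝ) ^ (-σ) : ℝ) : ℂ) ^ n * thj f p s a n := by
    intro n
    induction n with
    | zero =>
      rw [sum_range_one, tw_gam_zero, tw_Del_ind f p hp 0 0 s le_rfl]; simp
    | succ n ih =>
      rw [sum_range_succ, ih, tw_Del_gam f p hp, sum_range_succ, Complex.ofReal_sub,
        Complex.ofReal_one]
      ring
  exact key s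

theorem tw_thj_top (f : ℤ[X]) (p : ℕ) (hp : p.Prime) (s j : ℕ) (hj : s ≤ j) (a : ℤ) :
    thj f p s a j = e ((a * f.eval 0 : ℤ) / ((p ^ s : ℕ) : ℝ)) := by
  have hpos : 0 < p ^ s := Nat.pos_of_ne_zero (pow_ne_zero _ hp.ne_zero)
  rw [thj, th, ← av_const (p ^ s) hpos (e ((a * f.eval 0 : ℤ) / ((p ^ s : ℕ) : ℝ)))]
  congr 1; funext m
  have h1 : ((p ^ s : ℕ) : ℤ) ∣ f.eval (((p ^ j : ℕ) : ℤ) * m) - f.eval 0 := by
    refine Dvd.dvd.trans ?_ (sub_dvd_eval_sub _ _ f)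
    rw [sub_zero]
    exact Dvd.dvd.mul_right (Int.natCast_dvd_natCast.2 (pow_dvd_pow _ hj)) _
  obtain ⟨c, hc⟩ := h1
  have h2 : (C a * f.comp (C ((p ^ j : ℕ) : ℤ) * X)).eval m =
      a * f.eval 0 + ((p ^ s : ℕ) : ℤ) * (a * c) := by
    rw [eval_mul, eval_C, eval_comp, eval_mul, eval_C, eval_X, eq_add_of_sub_eq hc]; ring
  rw [h2, ← e_add_int ((a * f.eval 0 : ℤ) / ((p ^ s : ℕ) : ℝ)) (a * c)]
  congr 1
  have h3 : ((p ^ s : ℕ) : ℝ) ≠ 0 := by exact_mod_cast hpos.ne'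
  rw [Int.cast_add, Int.cast_mul ((p ^ s : ℕ) : ℤ), Int.cast_natCast]
  field_simp

theorem tw_ind_per (n d : ℕ) (hn : n ∣ d) (ρ : ℤ) : Function.Periodic (ind n ρ) (d : ℤ) := by
  intro m
  have h1 : (n : ℤ) ∣ d := Int.natCast_dvd_natCast.2 hn
  have h2 : (n : ℤ) ∣ m + d - ρ ↔ (n : ℤ) ∣ m - ρ := by
    rw [show m + d - ρ = m - ρ + d by ring]
    exact dvd_add_left h1
  simp only [ind, h2]

theorem tw_ind_nonneg (n : ℕ) (ρ m : ℤ) : 0 ≤ ind n ρ m := by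
  unfold ind; split_ifs <;> positivity

theorem tw_ind_le (n : ℕ) (ρ m : ℤ) : ind n ρ m ≤ n := by
  unfold ind; split_ifs
  · exact le_rfl
  · positivity

theorem tw_gam_loc0 (f : ℤ[X]) (σ : ℝ) (hσ : 0 < σ) (p : ℕ) (hp : p.Prime) :
    Loc0 f σ p (gam σ p) := by
  have hp1 : (1 : ℝ) ≤ p := by exact_mod_cast hp.one_le
  have hτ0 : 0 ≤ (p : ℝ) ^ (-σ) := by positivity
  have hτ1 : (p : ℝ) ^ (-σ) ≤ 1 := Real.rpow_le_one_of_one_le_of_nonpos hp1 (by linarith)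
  refine ⟨fun m => by simp [gam], fun j => ?_, fun j m => ?_, fun s j a hsj => ?_,
    fun s j a hj => ?_⟩
  · cases j with
    | zero => intro m; simp [gam]
    | succ j =>
      intro m
      rw [tw_gam_succ]
      simp only
      rw [tw_ind_per _ _ dvd_rfl 0 m, tw_ind_per (p ^ j) _ (pow_dvd_pow _ (Nat.le_succ j)) 0 m]
  · cases j with
    | zero => simp [gam]
    | succ j =>
      rw [tw_gam_succ]
      simp only
      have h1 : ((p ^ j : ℕ) : ℝ) ≤ ((p ^ (j + 1) : ℕ) : ℝ) := by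
        exact_mod_cast Nat.pow_le_pow_right hp.pos (Nat.le_succ j)
      have h2 : (1 : ℝ) ≤ ((p ^ (j + 1) : ℕ) : ℝ) := by
        exact_mod_cast Nat.pos_of_ne_zero (pow_ne_zero _ hp.ne_zero)
      have h3 : |ind (p ^ (j + 1)) 0 m - ind (p ^ j) 0 m| ≤ ((p ^ (j + 1) : ℕ) : ℝ) := by
        have := tw_ind_nonneg (p ^ (j + 1)) 0 m
        have := tw_ind_nonneg (p ^ j) 0 m
        have := tw_ind_le (p ^ (j + 1)) 0 m
        have := tw_ind_le (p ^ j) 0 m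
        rw [abs_le]; constructor <;> linarith
      rw [abs_mul, abs_of_nonneg (pow_nonneg hτ0 _)]
      refine (mul_le_of_le_one_left (abs_nonneg _) (pow_le_one₀ hτ0 hτ1)).trans (h3.trans ?_)
      nlinarith
  · obtain ⟨i, rfl⟩ : ∃ i, j = i + 1 := ⟨j - 1, by omega⟩
    rw [tw_Del_gam f p hp, tw_thj_top f p hp s _ (by omega), tw_thj_top f p hp s i (by omega),
      sub_self, mul_zero]
  · obtain ⟨i, rfl⟩ : ∃ i, j = i + 1 := ⟨j - 1, by omega⟩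
    rw [tw_Del_gam f p hp, norm_mul, norm_pow, Complex.norm_real, Real.norm_eq_abs,
      abs_of_nonneg hτ0]
    have h1 : ‖thj f p s a (i + 1) - thj f p s a i‖ ≤ 2 := by
      have := norm_sub_le (thj f p s a (i + 1)) (thj f p s a i)
      linarith [norm_thj_le f p s a (i + 1), norm_thj_le f p s a i]
    have h2 : ((p : ℝ) ^ (-σ)) ^ (i + 1) = ((p ^ (i + 1) : ℕ) : ℝ) ^ (-σ) := by
      rw [Nat.cast_pow, Real.rpow_pow_comm (by positivity)]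
    rw [← h2, mul_comm 2]
    exact mul_le_mul_of_nonneg_left h1 (pow_nonneg hτ0 _)

theorem gamL_loc0 (f : ℤ[X]) (σ : ℝ) (hσ : 0 < σ) (y p : ℕ) (hp : p.Prime) :
    Loc0 f σ p (gamL σ y p) := by
  by_cases hy : y < p
  · have : gamL σ y p = gam σ p := by funext j m; rw [gamL, if_pos hy]
    rw [this]; exact tw_gam_loc0 f σ hσ p hp
  · have h1 : ∀ j, j ≠ 0 → gamL σ y p j = fun _ => 0 := fun j hj => by
      funext m; rw [gamL, if_neg hy, if_neg hj]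
    refine ⟨fun m => by simp [gamL, hy], fun j m => by simp [gamL, hy], fun j m => ?_,
      fun s j a hsj => ?_, fun s j a hj => ?_⟩
    · rcases Nat.eq_zero_or_pos j with rfl | hj
      · simp [gamL, hy]
      · rw [h1 j hj.ne']; simp only [abs_zero]; positivity
    · rw [h1 j (by omega), tw_Del_zero]
    · rw [h1 j (by omega), tw_Del_zero, norm_zero]; positivity

end Vale.Agent.P042V
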